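import Vale.Agent.P155.Defs2

/-!
# P155, block E1: increments of the height function
-/

namespace Vale.Agent.P155.E1

open Finset

open Classical in
/-- contribution of the horizontal edge `{(j,y),(j+1,y)}` -/
noncomputable def dv (ω : Conf) (j y : ℤ) : ℤ :=
  (if Even (j + y) then -1 else 1) *
    ((if ω.1 (j, y) = (j + 1, y) then 1 else 0) - (if ω.2 (j, y) = (j + 1, y) then 1 else 0))

theorem support_dh_finite {V : Finset Pt} {ω : Conf} (hω : ω ∈ DD V) (y : ℤ) :
    (Function.support fun j : ℤ => dh ω j y).Finite := by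
  have h1 := mem_PM.1 (Finset.mem_product.1 hω).1
  have h2 := mem_PM.1 (Finset.mem_product.1 hω).2
  refine ((V.image Prod.fst).finite_toSet).subset ?_
  intro j hj
  by_contra hc
  apply hj
  have hv : (j, y) ∉ V := by
    intro hv
    apply hc
    rw [mem_coe, mem_image]
    exact ⟨(j, y), hv, rfl⟩
  change dh ω j y = 0
  unfold dh
  rw [h1.off _ hv, h2.off _ hv]
  simp

/-- splitting the last term of the sum along a ray -/
theorem finsum_ray (F : ℤ → ℤ) (hF : (Function.support F).Finite) (x : ℤ) :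
    ∑ᶠ j ∈ {j : ℤ | j ≤ x}, F j = (∑ᶠ j ∈ {j : ℤ | j ≤ x - 1}, F j) + F x := by
  have e : {j : ℤ | j ≤ x} = {j : ℤ | j ≤ x - 1} ∪ {x} := by
    ext j
    simp only [Set.mem_ofPred_eq, Set.mem_union, Set.mem_singleton_iff]
    omega
  rw [e, finsum_mem_union' ?_ (hF.inter_of_right _) (hF.inter_of_right _), finsum_mem_singleton]
  rw [Set.disjoint_singleton_right]
  simp

/-- horizontal increment of the height -/
theorem h_horiz {V : Finset Pt} {ω : Conf} (hω : ω ∈ DD V) (x y : ℤ) :
    h ω (x, y) - h ω (x - 1, y) = dh ω x y := by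
  unfold h
  simp only
  rw [finsum_ray _ (support_dh_finite hω y)]
  ring

theorem pm_indic {V : Finset Pt} {m : Pt → Pt} (hm : IsPM V m) (j y : ℤ) :
    (if m (j, y) = (j + 1, y) then (1 : ℤ) else 0) + (if m (j, y) = (j - 1, y) then (1 : ℤ) else 0) +
    (if m (j, y) = (j, y + 1) then (1 : ℤ) else 0) + (if m (j, y) = (j, y - 1) then (1 : ℤ) else 0) =
    if (j, y) ∈ V then 1 else 0 := by
  classical
  by_cases hv : (j, y) ∈ V
  · rw [if_pos hv]
    have ha := mem_nbrs.2 (hm.adj _ hv)
    simp only [nbrs, mem_insert, mem_singleton] at ha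
    have n1 : ((j + 1, y) : Pt) ≠ (j - 1, y) := by simp; omega
    have n2 : ((j + 1, y) : Pt) ≠ (j, y + 1) := by simp
    have n3 : ((j + 1, y) : Pt) ≠ (j, y - 1) := by simp
    have n4 : ((j - 1, y) : Pt) ≠ (j, y + 1) := by simp
    have n5 : ((j - 1, y) : Pt) ≠ (j, y - 1) := by simp
    have n6 : ((j, y + 1) : Pt) ≠ (j, y - 1) := by simp; omega
    rcases ha with ha | ha | ha | ha <;> rw [ha]
    · rw [if_pos rfl, if_neg n1, if_neg n2, if_neg n3]; rfl
    · rw [if_neg n1.symm, if_pos rfl, if_neg n4, if_neg n5]; rfl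
    · rw [if_neg n2.symm, if_neg n4.symm, if_pos rfl, if_neg n6]; rfl
    · rw [if_neg n3.symm, if_neg n5.symm, if_neg n6.symm, if_pos rfl]; rfl
  · rw [if_neg hv, hm.off _ hv]
    have n1 : ((j, y) : Pt) ≠ (j + 1, y) := by simp
    have n2 : ((j, y) : Pt) ≠ (j - 1, y) := by simp; omega
    have n3 : ((j, y) : Pt) ≠ (j, y + 1) := by simp
    have n4 : ((j, y) : Pt) ≠ (j, y - 1) := by simp; omega
    rw [if_neg n1, if_neg n2, if_neg n3, if_neg n4]; rfl

theorem pm_flip {V : Finset Pt} {m : Pt → Pt} (hm : IsPM V m) (u v : Pt) :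
    m u = v ↔ m v = u :=
  ⟨fun e => by rw [← e, hm.invol], fun e => by rw [← e, hm.invol]⟩

/-- the local conservation law at the vertex `(j,y)` -/
theorem local_rel {V : Finset Pt} {ω : Conf} (hω : ω ∈ DD V) (j y : ℤ) :
    dh ω j y - dh ω j (y - 1) = dv ω j y - dv ω (j - 1) y := by
  classical
  have h1 := mem_PM.1 (Finset.mem_product.1 hω).1
  have h2 := mem_PM.1 (Finset.mem_product.1 hω).2
  have a1 := pm_indic h1 j y
  have a2 := pm_indic h2 j y
  unfold dh dv
  have f1 : ω.1 (j, y - 1) = (j, y - 1 + 1) ↔ ω.1 (j, y) = (j, y - 1) := by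
    rw [sub_add_cancel]; exact pm_flip h1 _ _
  have f2 : ω.2 (j, y - 1) = (j, y - 1 + 1) ↔ ω.2 (j, y) = (j, y - 1) := by
    rw [sub_add_cancel]; exact pm_flip h2 _ _
  have f3 : ω.1 (j - 1, y) = (j - 1 + 1, y) ↔ ω.1 (j, y) = (j - 1, y) := by
    rw [sub_add_cancel]; exact pm_flip h1 _ _
  have f4 : ω.2 (j - 1, y) = (j - 1 + 1, y) ↔ ω.2 (j, y) = (j - 1, y) := by
    rw [sub_add_cancel]; exact pm_flip h2 _ _
  simp only [f1, f2, f3, f4]
  by_cases hp : Even (j + y)
  · have p1 : ¬ Even (j + (y - 1)) := by grind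
    have p2 : ¬ Even (j - 1 + y) := by grind
    rw [if_pos hp, if_neg p1, if_pos hp, if_neg p2]
    linarith
  · have p1 : Even (j + (y - 1)) := by grind
    have p2 : Even (j - 1 + y) := by grind
    rw [if_neg hp, if_pos p1, if_neg hp, if_pos p2]
    linarith

theorem mem_sub (s : Set ℤ) (F G : ℤ → ℤ) (hF : (Function.support F).Finite)
    (hG : (Function.support G).Finite) :
    ∑ᶠ j ∈ s, (F j - G j) = ∑ᶠ j ∈ s, F j - ∑ᶠ j ∈ s, G j := by
  have hFG : (Function.support fun j => F j - G j).Finite :=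
    (hF.union hG).subset (Function.support_sub _ _)
  have := finsum_mem_add_distrib' (s := s) (hFG.inter_of_right s) (hG.inter_of_right s)
  simp only [sub_add_cancel] at this
  linarith

/-- telescoping along a ray -/
theorem finsum_telescope (F : ℤ → ℤ) (hF : (Function.support F).Finite) (x : ℤ) :
    ∑ᶠ j ∈ {j : ℤ | j ≤ x}, (F j - F (j - 1)) = F x := by
  have hF' : (Function.support fun j : ℤ => F (j - 1)).Finite := by
    have : (Function.support fun j : ℤ => F (j - 1)) = (fun j : ℤ => j - 1) ⁻¹' Function.support F := rfl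
    rw [this]
    exact hF.preimage (fun a _ b _ h => by simpa using h)
  rw [mem_sub _ _ _ hF hF', finsum_ray F hF x]
  have e : ∑ᶠ j ∈ {j : ℤ | j ≤ x}, F (j - 1) = ∑ᶠ j ∈ {j : ℤ | j ≤ x - 1}, F j := by
    rw [finsum_mem_eq_of_bijOn (fun j : ℤ => j - 1) (g := F)
      (s := {j : ℤ | j ≤ x}) (t := {j : ℤ | j ≤ x - 1})]
    · refine ⟨?_, ?_, ?_⟩
      · intro j hj
        simp only [Set.mem_ofPred_eq] at hj ⊢
        linarith
      · intro a _ b _ hab
        simpa using hab
      · intro j hj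
        refine ⟨j + 1, ?_, by simp⟩
        simp only [Set.mem_ofPred_eq] at hj ⊢
        linarith
    · intro j _
      rfl
  rw [e]
  ring

/-- vertical increment of the height -/
theorem h_vert {V : Finset Pt} {ω : Conf} (hω : ω ∈ DD V) (x y : ℤ) :
    h ω (x, y) - h ω (x, y - 1) = dv ω x y := by
  have h1 := mem_PM.1 (Finset.mem_product.1 hω).1
  have h2 := mem_PM.1 (Finset.mem_product.1 hω).2
  unfold h
  simp only
  rw [← mem_sub _ _ _ (support_dh_finite hω y) (support_dh_finite hω (y - 1))]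
  have hfin : (Function.support fun j : ℤ => dv ω j y).Finite := by
    refine ((V.image Prod.fst).finite_toSet).subset ?_
    intro j hj
    by_contra hc
    apply hj
    have hv : (j, y) ∉ V := by
      intro hv
      apply hc
      rw [mem_coe, mem_image]
      exact ⟨(j, y), hv, rfl⟩
    change dv ω j y = 0
    unfold dv
    rw [h1.off _ hv, h2.off _ hv]
    simp
  have e : ∀ j, dh ω j y - dh ω j (y - 1) = dv ω j y - dv ω (j - 1) y := fun j => local_rel hω j y
  simp_rw [e]
  exact finsum_telescope (fun j => dv ω j y) hfin x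

end Vale.Agent.P155.E1
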