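import Vale.Agent.P155.J.CEx

/-!
# P155, block E1: atoms of `outside` explorations are products of sets of matchings
-/

namespace Vale.Agent.P155.E1

open Finset J

/-- replace `m` by `m'` on `S` -/
def glue (S : Finset Pt) (m m' : Pt → Pt) : Pt → Pt := fun v => by
  classical exact if v ∈ S then m' v else m v

theorem glue_mem {S : Finset Pt} {m m' : Pt → Pt} {v : Pt} (h : v ∈ S) : glue S m m' v = m' v := by
  unfold glue; rw [if_pos h]

theorem glue_not {S : Finset Pt} {m m' : Pt → Pt} {v : Pt} (h : v ∉ S) : glue S m m' v = m v := by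
  unfold glue; rw [if_neg h]

theorem mem_Vin {V B : Finset Pt} {m : Pt → Pt} {v : Pt} :
    v ∈ Vin V B m ↔ v ∈ V ∧ v ∈ B ∧ m v ∈ B := by
  unfold Vin
  rw [mem_filter]

theorem pm_mem' {V : Finset Pt} {m : Pt → Pt} (hm : IsPM V m) {v : Pt} (hv : v ∈ V) : m v ∈ V := by
  by_contra h
  have h1 := hm.off _ h
  rw [hm.invol] at h1
  rw [← h1] at h
  exact h hv

theorem adj_ne {u v : Pt} (h : Adj u v) : u ≠ v := by
  rintro rfl
  unfold Adj at h
  simp at h

/-- `Vin` is closed under `m` -/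
theorem Vin_closed {V B : Finset Pt} {m : Pt → Pt} (hm : IsPM V m) {v : Pt} (hv : v ∈ Vin V B m) :
    m v ∈ Vin V B m := by
  rw [mem_Vin] at *
  exact ⟨pm_mem' hm hv.1, hv.2.2, by rw [hm.invol]; exact hv.2.1⟩

theorem glue_PM {V B : Finset Pt} {m m' : Pt → Pt} (hm : IsPM V m) (hm' : IsPM (Vin V B m) m') :
    IsPM V (glue (Vin V B m) m m') where
  invol v := by
    by_cases hv : v ∈ Vin V B m
    · rw [glue_mem hv, glue_mem (pm_mem' hm' hv), hm'.invol]
    · have h2 : m v ∉ Vin V B m := fun h => hv (by simpa [hm.invol] using Vin_closed hm h)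
      rw [glue_not hv, glue_not h2, hm.invol]
  off v hv := by
    have h2 : v ∉ Vin V B m := fun h => hv (mem_Vin.1 h).1
    rw [glue_not h2, hm.off v hv]
  adj v hv := by
    by_cases hv' : v ∈ Vin V B m
    · rw [glue_mem hv']; exact hm'.adj v hv'
    · rw [glue_not hv']; exact hm.adj v hv

/-- `Vin` only depends on the outside -/
theorem Vin_congr {V B : Finset Pt} {m m' : Pt → Pt} (hm : IsPM V m) (hm' : IsPM V m')
    (h : ∀ v, v ∉ Vin V B m → m' v = m v) : Vin V B m' = Vin V B m := by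
  have key : ∀ v, v ∈ Vin V B m → m' v ∈ Vin V B m := by
    intro v hv
    by_contra hc
    have h1 := h _ hc
    rw [hm'.invol] at h1
    have h2 : m v = m' v := by
      have := congrArg m h1
      rwa [hm.invol] at this
    rw [← h2] at hc
    exact hc (Vin_closed hm hv)
  ext v
  by_cases hv : v ∈ Vin V B m
  · simp only [hv, iff_true]
    rw [mem_Vin]
    exact ⟨(mem_Vin.1 hv).1, (mem_Vin.1 hv).2.1, (mem_Vin.1 (key v hv)).2.1⟩
  · simp only [hv, iff_false]
    intro h'
    rw [mem_Vin, h v hv] at h'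
    exact hv (mem_Vin.2 h')

theorem Vk_zero (V : Finset Pt) (ω : Conf) : Vk V 0 ω = (V : Set Pt) := by
  ext v
  simp [Vk]

theorem outside_fst (V B : Finset Pt) (ω : Conf) :
    (outside (Fk V 0) (B : Set Pt) ω).1 = (Vin V B ω.1 : Set Pt) := by
  ext v
  simp only [outside, Fk, Vk_zero, mem_coe, mem_Vin, Set.mem_ofPred_eq]

theorem outside_snd (V B : Finset Pt) (ω : Conf) :
    (outside (Fk V 0) (B : Set Pt) ω).2 = (Vin V B ω.2 : Set Pt) := by
  ext v
  simp only [outside, Fk, Vk_zero, mem_coe, mem_Vin, Set.mem_ofPred_eq]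

/-- cut a matching down to `S` -/
def cutTo (S : Finset Pt) (m : Pt → Pt) : Pt → Pt := fun v => by
  classical exact if v ∈ S then m v else v

theorem cutTo_PM {V S : Finset Pt} {m : Pt → Pt} (hm : IsPM V m) (hS : S ⊆ V)
    (hc : ∀ v ∈ S, m v ∈ S) : IsPM S (cutTo S m) where
  invol v := by
    unfold cutTo
    by_cases hv : v ∈ S
    · rw [if_pos hv, if_pos (hc v hv), hm.invol]
    · rw [if_neg hv, if_neg hv]
  off v hv := by unfold cutTo; rw [if_neg hv]
  adj v hv := by unfold cutTo; rw [if_pos hv]; exact hm.adj v (hS hv)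

open Classical in
/-- the atom of one copy -/
theorem atom_one {V B : Finset Pt} {m : Pt → Pt} (hm : IsPM V m) :
    (PM V).filter (fun m' => ∀ v, v ∉ Vin V B m → m' v = m v) =
      (PM (Vin V B m)).image (glue (Vin V B m) m) := by
  ext m'
  rw [mem_filter, mem_image]
  constructor
  · rintro ⟨h1, h2⟩
    have h1' := mem_PM.1 h1
    have hcl : ∀ v ∈ Vin V B m, m' v ∈ Vin V B m := by
      intro v hv
      have e := Vin_congr hm h1' h2
      rw [← e] at hv ⊢
      exact Vin_closed h1' hv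
    refine ⟨cutTo (Vin V B m) m', mem_PM.2 (cutTo_PM h1' (fun v hv => (mem_Vin.1 hv).1) hcl), ?_⟩
    funext v
    by_cases hv : v ∈ Vin V B m
    · rw [glue_mem hv]; unfold cutTo; rw [if_pos hv]
    · rw [glue_not hv, h2 v hv]
  · rintro ⟨m'', h1, rfl⟩
    refine ⟨mem_PM.2 (glue_PM hm (mem_PM.1 h1)), ?_⟩
    intro v hv
    rw [glue_not hv]

theorem glue_inj {V B : Finset Pt} (m : Pt → Pt) :
    Set.InjOn (glue (Vin V B m) m) (PM (Vin V B m) : Set (Pt → Pt)) := by
  intro a ha b hb hab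
  rw [mem_coe, mem_PM] at ha hb
  funext v
  by_cases hv : v ∈ Vin V B m
  · have := congrFun hab v
    rwa [glue_mem hv, glue_mem hv] at this
  · rw [ha.off v hv, hb.off v hv]

/-- the glued pair -/
def glue2 (V B : Finset Pt) (ω p : Conf) : Conf :=
  (glue (Vin V B ω.1) ω.1 p.1, glue (Vin V B ω.2) ω.2 p.2)

open Classical in
/-- atoms of the outside of a box are products -/
theorem atom_outside {V B : Finset Pt} {ω : Conf} (hω : ω ∈ DD V) :
    atom V (outside (Fk V 0) (B : Set Pt)) ω =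
      (PM (Vin V B ω.1) ×ˢ PM (Vin V B ω.2)).image (glue2 V B ω) := by
  have h1 := mem_PM.1 (mem_product.1 hω).1
  have h2 := mem_PM.1 (mem_product.1 hω).2
  ext ω'
  rw [mem_atom, mem_image]
  unfold AgreeOff
  rw [outside_fst, outside_snd]
  constructor
  · rintro ⟨ha, hb, hc⟩
    have e1 : ω'.1 ∈ (PM V).filter (fun m' => ∀ v, v ∉ Vin V B ω.1 → m' v = ω.1 v) :=
      mem_filter.2 ⟨(mem_product.1 ha).1, fun v hv => hb v (by simpa using hv)⟩
    have e2 : ω'.2 ∈ (PM V).filter (fun m' => ∀ v, v ∉ Vin V B ω.2 → m' v = ω.2 v) :=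
      mem_filter.2 ⟨(mem_product.1 ha).2, fun v hv => hc v (by simpa using hv)⟩
    rw [atom_one h1, mem_image] at e1
    rw [atom_one h2, mem_image] at e2
    obtain ⟨a, ha1, ha2⟩ := e1
    obtain ⟨b, hb1, hb2⟩ := e2
    exact ⟨(a, b), mem_product.2 ⟨ha1, hb1⟩, Prod.ext ha2 hb2⟩
  · rintro ⟨p, hp, rfl⟩
    obtain ⟨hp1, hp2⟩ := mem_product.1 hp
    refine ⟨mem_product.2 ⟨mem_PM.2 (glue_PM h1 (mem_PM.1 hp1)), mem_PM.2 (glue_PM h2 (mem_PM.1 hp2))⟩,
      ?_, ?_⟩
    · intro v hv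
      exact glue_not (by simpa using hv)
    · intro v hv
      exact glue_not (by simpa using hv)

theorem glue2_inj {V B : Finset Pt} (ω : Conf) :
    Set.InjOn (glue2 V B ω) ((PM (Vin V B ω.1) ×ˢ PM (Vin V B ω.2) : Finset Conf) : Set Conf) := by
  intro a ha b hb hab
  rw [mem_coe, mem_product] at ha hb
  have h1 : (glue2 V B ω a).1 = (glue2 V B ω b).1 := by rw [hab]
  have h2 : (glue2 V B ω a).2 = (glue2 V B ω b).2 := by rw [hab]
  exact Prod.ext (glue_inj ω.1 ha.1 hb.1 h1) (glue_inj ω.2 ha.2 hb.2 h2)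

/-- conditional expectation given the outside of a box as an average over a product -/
theorem cEx_outside_eq {E : Type*} [AddCommMonoid E] [Module ℝ E] {V B : Finset Pt} {ω : Conf}
    (hω : ω ∈ DD V) (g : Conf → E) :
    cEx V (outside (Fk V 0) (B : Set Pt)) g ω =
      avg (PM (Vin V B ω.1) ×ˢ PM (Vin V B ω.2)) (fun p => g (glue2 V B ω p)) := by
  classical
  rw [cEx_eq_avg, atom_outside hω]
  unfold avg
  rw [card_image_of_injOn (glue2_inj ω), sum_image (glue2_inj ω)]

theorem PM_Vin_nonempty {V B : Finset Pt} {m : Pt → Pt} (hm : IsPM V m) :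
    (PM (Vin V B m)).Nonempty :=
  ⟨cutTo (Vin V B m) m, mem_PM.2 (cutTo_PM hm (fun v hv => (mem_Vin.1 hv).1)
    (fun _ hv => Vin_closed hm hv))⟩

theorem avg_prod_fst {α β E : Type*} [AddCommMonoid E] [Module ℝ E] {s : Finset α} {t : Finset β}
    (ht : t.Nonempty) (g : α → E) : avg (s ×ˢ t) (fun p => g p.1) = avg s g := by
  unfold avg
  rw [card_product, sum_product]
  simp only [sum_const]
  have h : (t.card : ℝ) ≠ 0 := by exact_mod_cast ht.card_pos.ne'
  rw [← smul_sum, ← Nat.cast_smul_eq_nsmul ℝ, smul_smul]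
  congr 1
  push_cast
  rw [mul_inv, mul_assoc, inv_mul_cancel₀ h, mul_one]

theorem avg_prod_snd {α β E : Type*} [AddCommMonoid E] [Module ℝ E] {s : Finset α} {t : Finset β}
    (hs : s.Nonempty) (g : β → E) : avg (s ×ˢ t) (fun p => g p.2) = avg t g := by
  unfold avg
  rw [card_product, sum_product]
  simp only [sum_const]
  have h : (s.card : ℝ) ≠ 0 := by exact_mod_cast hs.card_pos.ne'
  rw [← Nat.cast_smul_eq_nsmul ℝ, smul_smul]
  congr 1
  push_cast
  rw [mul_inv, mul_comm (s.card : ℝ)⁻¹, mul_assoc, inv_mul_cancel₀ h, mul_one]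

theorem Ex1_eq_avg (V : Finset Pt) (g : (Pt → Pt) → ℝ) : Ex1 V g = avg (PM V) g := rfl

/-- conditional expectation of a function of the first matching -/
theorem cEx_fst {V B : Finset Pt} {ω : Conf} (hω : ω ∈ DD V) (g : (Pt → Pt) → ℝ) :
    cEx V (outside (Fk V 0) (B : Set Pt)) (fun ω' => g ω'.1) ω =
      Ex1 (Vin V B ω.1) (fun m' => g (glue (Vin V B ω.1) ω.1 m')) := by
  rw [cEx_outside_eq hω, Ex1_eq_avg]
  exact avg_prod_fst (PM_Vin_nonempty (mem_PM.1 (mem_product.1 hω).2))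
    (fun m' => g (glue (Vin V B ω.1) ω.1 m'))

/-- conditional expectation of a function of the second matching -/
theorem cEx_snd {V B : Finset Pt} {ω : Conf} (hω : ω ∈ DD V) (g : (Pt → Pt) → ℝ) :
    cEx V (outside (Fk V 0) (B : Set Pt)) (fun ω' => g ω'.2) ω =
      Ex1 (Vin V B ω.2) (fun m' => g (glue (Vin V B ω.2) ω.2 m')) := by
  rw [cEx_outside_eq hω, Ex1_eq_avg]
  exact avg_prod_snd (PM_Vin_nonempty (mem_PM.1 (mem_product.1 hω).1))
    (fun m' => g (glue (Vin V B ω.2) ω.2 m'))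

theorem avg_prod_mul {α β : Type*} (s : Finset α) (t : Finset β) (g : α → ℝ) (k : β → ℝ) :
    avg (s ×ˢ t) (fun p => g p.1 * k p.2) = avg s g * avg t k := by
  rw [avg_real, avg_real, avg_real, card_product, sum_product]
  simp only [← mul_sum]
  rw [← sum_mul]
  push_cast
  rw [mul_inv]
  ring

/-- conditional independence of the two copies -/
theorem cEx_indep {V B : Finset Pt} {ω : Conf} (hω : ω ∈ DD V) (g k : (Pt → Pt) → ℝ) :
    cEx V (outside (Fk V 0) (B : Set Pt)) (fun ω' => g ω'.1 * k ω'.2) ω =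
      cEx V (outside (Fk V 0) (B : Set Pt)) (fun ω' => g ω'.1) ω *
      cEx V (outside (Fk V 0) (B : Set Pt)) (fun ω' => k ω'.2) ω := by
  rw [cEx_fst hω, cEx_snd hω, cEx_outside_eq hω, Ex1_eq_avg, Ex1_eq_avg]
  exact avg_prod_mul _ _ (fun m' => g (glue (Vin V B ω.1) ω.1 m'))
    (fun m' => k (glue (Vin V B ω.2) ω.2 m'))

end Vale.Agent.P155.E1
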