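import Vale.Agent.P155.E1.Core
import Vale.Agent.P155.G.Grad
import Vale.Agent.P155.A.KOp

/-!
# P155, block E1: bounds for first and mixed second differences of `R`
-/

namespace Vale.Agent.P155.E1

open Finset

theorem relL_iff (R : Pt → Pt → ℝ) (w' w : Pt) : RelL R w' w ↔ Kop (fun b => R b w) w' = 0 := by
  rfl

theorem relR_iff (R : Pt → Pt → ℝ) (b b' : Pt) : RelR R b b' ↔ KTop (fun w => R b w) b' = 0 := by
  rfl

theorem mem_box' {x z : Pt} {r : ℕ} : z ∈ box x r ↔ |z.1 - x.1| ≤ r ∧ |z.2 - x.2| ≤ r := by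
  unfold box
  rw [mem_product, mem_Icc, mem_Icc, abs_le, abs_le]
  constructor
  · rintro ⟨⟨h1, h2⟩, h3, h4⟩
    refine ⟨⟨?_, ?_⟩, ?_, ?_⟩ <;> linarith
  · rintro ⟨⟨h1, h2⟩, h3, h4⟩
    refine ⟨⟨?_, ?_⟩, ?_, ?_⟩ <;> linarith

/-- the two relations and the size bound on the box of radius `T` -/
structure Rel (R : Pt → Pt → ℝ) (x : Pt) (T : ℕ) : Prop where
  L : ∀ w' w, White w' → White w → w' ∈ box x T → w ∈ box x T → RelL R w' w
  Rr : ∀ b b', Black b → Black b' → b ∈ box x T → b' ∈ box x T → RelR R b b'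

theorem lap2_left {R : Pt → Pt → ℝ} {x : Pt} {T : ℕ} (h : Rel R x T) {b w : Pt}
    (hb : Black b) (hw : White w) (hwT : w ∈ box x T)
    (h1 : |b.1 - x.1| < T) (h2 : |b.2 - x.2| < T) : lap2 (fun b => R b w) b = 0 := by
  have hT : (0 : ℤ) < T := lt_of_le_of_lt (abs_nonneg _) h1
  obtain ⟨a1, a2⟩ := abs_lt.1 h1
  obtain ⟨a3, a4⟩ := abs_lt.1 h2
  have key : ∀ w', White w' → w' ∈ box x T → Kop (fun b => R b w) w' = 0 := fun w' hw' hm =>
    h.L w' w hw' hw hm hwT
  have e := KTop_Kop (fun b => R b w) b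
  have k1 := key (b.1 - 1, b.2) (by unfold White Black at *; simp only; grind)
    (by rw [mem_box']; constructor <;> rw [abs_le] <;> constructor <;> simp only <;> omega)
  have k2 := key (b.1 + 1, b.2) (by unfold White Black at *; simp only; grind)
    (by rw [mem_box']; constructor <;> rw [abs_le] <;> constructor <;> simp only <;> omega)
  have k3 := key (b.1, b.2 + 1) (by unfold White Black at *; simp only; grind)
    (by rw [mem_box']; constructor <;> rw [abs_le] <;> constructor <;> simp only <;> omega)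
  have k4 := key (b.1, b.2 - 1) (by unfold White Black at *; simp only; grind)
    (by rw [mem_box']; constructor <;> rw [abs_le] <;> constructor <;> simp only <;> omega)
  have e0 : KTop (Kop fun b => R b w) b = 0 := by
    unfold KTop
    rw [k1, k2, k3, k4]; ring
  rw [e0] at e
  simp only [lap2]
  linarith

theorem lap2_right {R : Pt → Pt → ℝ} {x : Pt} {T : ℕ} (h : Rel R x T) {b w : Pt}
    (hb : Black b) (hw : White w) (hbT : b ∈ box x T)
    (h1 : |w.1 - x.1| < T) (h2 : |w.2 - x.2| < T) : lap2 (fun w => R b w) w = 0 := by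
  have hT : (0 : ℤ) < T := lt_of_le_of_lt (abs_nonneg _) h1
  obtain ⟨a1, a2⟩ := abs_lt.1 h1
  obtain ⟨a3, a4⟩ := abs_lt.1 h2
  have key : ∀ b', Black b' → b' ∈ box x T → KTop (fun w => R b w) b' = 0 := fun b' hb' hm =>
    h.Rr b b' hb hb' hbT hm
  have e := Kop_KTop (fun w => R b w) w
  have k1 := key (w.1 - 1, w.2) (by unfold White Black at *; simp only; grind)
    (by rw [mem_box']; constructor <;> rw [abs_le] <;> constructor <;> simp only <;> omega)
  have k2 := key (w.1 + 1, w.2) (by unfold White Black at *; simp only; grind)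
    (by rw [mem_box']; constructor <;> rw [abs_le] <;> constructor <;> simp only <;> omega)
  have k3 := key (w.1, w.2 + 1) (by unfold White Black at *; simp only; grind)
    (by rw [mem_box']; constructor <;> rw [abs_le] <;> constructor <;> simp only <;> omega)
  have k4 := key (w.1, w.2 - 1) (by unfold White Black at *; simp only; grind)
    (by rw [mem_box']; constructor <;> rw [abs_le] <;> constructor <;> simp only <;> omega)
  have e0 : Kop (KTop fun w => R b w) w = 0 := by
    unfold Kop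
    rw [k1, k2, k3, k4]; ring
  rw [e0] at e
  simp only [lap2]
  linarith

theorem lap_rescale (F : Pt → ℝ) (c z : Pt) :
    lap (fun z : Pt => F (c.1 + 2 * z.1, c.2 + 2 * z.2)) z = lap2 F (c.1 + 2 * z.1, c.2 + 2 * z.2) := by
  simp only [lap, lap2]
  have e1 : c.1 + 2 * (z.1 + 1) = c.1 + 2 * z.1 + 2 := by ring
  have e2 : c.1 + 2 * (z.1 - 1) = c.1 + 2 * z.1 - 2 := by ring
  have e3 : c.2 + 2 * (z.2 + 1) = c.2 + 2 * z.2 + 2 := by ring
  have e4 : c.2 + 2 * (z.2 - 1) = c.2 + 2 * z.2 - 2 := by ring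
  rw [e1, e2, e3, e4]

/-- gradient estimate for step-2 harmonic functions on the sublattice of `c` -/
theorem diff2_le {F : Pt → ℝ} {c : Pt} {n : ℕ} (hn : 1 ≤ n) {M : ℝ}
    (hM : ∀ z : Pt, |z.1| ≤ n → |z.2| ≤ n → |F (c.1 + 2 * z.1, c.2 + 2 * z.2)| ≤ M)
    (hh : ∀ z : Pt, |z.1| < n → |z.2| < n → lap2 F (c.1 + 2 * z.1, c.2 + 2 * z.2) = 0)
    {u : Pt} (hu : u = (1, 0) ∨ u = (0, 1)) :
    |F (c.1 + 2 * u.1, c.2 + 2 * u.2) - F c| ≤ 2 * M / n := by
  have hx := G.grad_x (fun z : Pt => F (c.1 + 2 * z.1, c.2 + 2 * z.2)) (0, 0) n hn M 0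
    (fun z h1 h2 => hM z (by simpa using h1) (by simpa using h2))
    (fun z h1 h2 => by rw [lap_rescale, hh z (by simpa using h1) (by simpa using h2), abs_zero])
  have hy := G.grad_y (fun z : Pt => F (c.1 + 2 * z.1, c.2 + 2 * z.2)) (0, 0) n hn M 0
    (fun z h1 h2 => hM z (by simpa using h1) (by simpa using h2))
    (fun z h1 h2 => by rw [lap_rescale, hh z (by simpa using h1) (by simpa using h2), abs_zero])
  rcases hu with rfl | rfl
  · simpa [Dx] using hx
  · simpa [Dy] using hy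

theorem black_shift {b : Pt} (hb : Black b) (z : Pt) : Black (b.1 + 2 * z.1, b.2 + 2 * z.2) := by
  unfold Black at *
  simp only
  obtain ⟨r, hr⟩ := hb
  exact ⟨r + z.1 + z.2, by linarith⟩

theorem white_shift {b : Pt} (hb : White b) (z : Pt) : White (b.1 + 2 * z.1, b.2 + 2 * z.2) := by
  unfold White at *
  simp only
  obtain ⟨r, hr⟩ := hb
  exact ⟨r + z.1 + z.2, by linarith⟩

/-- first differences in the black variable -/
theorem diffB_le {R : Pt → Pt → ℝ} {x : Pt} {T n : ℕ} (h : Rel R x T) {M : ℝ}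
    (hM : ∀ b w, Black b → White w → b ∈ box x T → w ∈ box x T → |R b w| ≤ M) (hn : 1 ≤ n)
    {b w u : Pt} (hb : Black b) (hw : White w) (hwT : w ∈ box x T)
    (h1 : |b.1 - x.1| + 2 * n ≤ T) (h2 : |b.2 - x.2| + 2 * n ≤ T)
    (hu : u = (1, 0) ∨ u = (0, 1)) :
    |R (b.1 + 2 * u.1, b.2 + 2 * u.2) w - R b w| ≤ 2 * M / n := by
  refine diff2_le (F := fun b => R b w) hn ?_ ?_ hu
  · intro z hz1 hz2
    refine hM _ _ (black_shift hb z) hw ?_ hwT
    rw [mem_box']
    simp only
    constructor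
    · rcases abs_cases (b.1 - x.1) with ⟨a, _⟩ | ⟨a, _⟩ <;> rw [abs_le] at * <;> constructor <;> omega
    · rcases abs_cases (b.2 - x.2) with ⟨a, _⟩ | ⟨a, _⟩ <;> rw [abs_le] at * <;> constructor <;> omega
  · intro z hz1 hz2
    refine lap2_left h (black_shift hb z) hw hwT ?_ ?_
    · simp only
      rcases abs_cases (b.1 - x.1) with ⟨a, _⟩ | ⟨a, _⟩ <;> rw [abs_lt] at * <;> constructor <;> omega
    · simp only
      rcases abs_cases (b.2 - x.2) with ⟨a, _⟩ | ⟨a, _⟩ <;> rw [abs_lt] at * <;> constructor <;> omega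

/-- mixed second differences -/
theorem mixD_le {R : Pt → Pt → ℝ} {x : Pt} {T n : ℕ} (h : Rel R x T) {M : ℝ}
    (hM : ∀ b w, Black b → White w → b ∈ box x T → w ∈ box x T → |R b w| ≤ M) (hn : 1 ≤ n)
    {b w u v : Pt} (hb : Black b) (hw : White w)
    (h1 : |b.1 - x.1| + 2 * n ≤ T) (h2 : |b.2 - x.2| + 2 * n ≤ T)
    (h3 : |w.1 - x.1| + 2 * n ≤ T) (h4 : |w.2 - x.2| + 2 * n ≤ T)
    (hu : u = (1, 0) ∨ u = (0, 1)) (hv : v = (1, 0) ∨ v = (0, 1)) :
    |mixD R b w u v| ≤ 4 * M / (n : ℝ) ^ 2 := by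
  have hn0 : (0 : ℝ) < n := by exact_mod_cast hn
  have key := diff2_le (F := fun w => R (b.1 + 2 * u.1, b.2 + 2 * u.2) w - R b w) (c := w) (n := n)
    (M := 2 * M / n) hn (by
      intro z hz1 hz2
      refine diffB_le h hM hn hb (white_shift hw z) ?_ h1 h2 hu
      rw [mem_box']
      simp only
      constructor
      · rcases abs_cases (w.1 - x.1) with ⟨a, _⟩ | ⟨a, _⟩ <;> rw [abs_le] at * <;> constructor <;> omega
      · rcases abs_cases (w.2 - x.2) with ⟨a, _⟩ | ⟨a, _⟩ <;> rw [abs_le] at * <;> constructor <;> omega)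
    (by
      intro z hz1 hz2
      have hbT : b ∈ box x T := by
        rw [mem_box']
        constructor <;> omega
      have hbT' : (b.1 + 2 * u.1, b.2 + 2 * u.2) ∈ box x T := by
        rw [mem_box']
        simp only
        rcases hu with rfl | rfl <;> simp only <;> constructor
        · rcases abs_cases (b.1 - x.1) with ⟨a, _⟩ | ⟨a, _⟩ <;> rw [abs_le] at * <;> constructor <;> omega
        · rcases abs_cases (b.2 - x.2) with ⟨a, _⟩ | ⟨a, _⟩ <;> rw [abs_le] at * <;> constructor <;> omega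
        · rcases abs_cases (b.1 - x.1) with ⟨a, _⟩ | ⟨a, _⟩ <;> rw [abs_le] at * <;> constructor <;> omega
        · rcases abs_cases (b.2 - x.2) with ⟨a, _⟩ | ⟨a, _⟩ <;> rw [abs_le] at * <;> constructor <;> omega
      have e1 := lap2_right h (black_shift hb u) (white_shift hw z) hbT'
        (by
          simp only
          rcases abs_cases (w.1 - x.1) with ⟨a, _⟩ | ⟨a, _⟩ <;> rw [abs_lt] at * <;> constructor <;> omega)
        (by
          simp only
          rcases abs_cases (w.2 - x.2) with ⟨a, _⟩ | ⟨a, _⟩ <;> rw [abs_lt] at * <;> constructor <;> omega)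
      have e2 := lap2_right h hb (white_shift hw z) hbT
        (by
          simp only
          rcases abs_cases (w.1 - x.1) with ⟨a, _⟩ | ⟨a, _⟩ <;> rw [abs_lt] at * <;> constructor <;> omega)
        (by
          simp only
          rcases abs_cases (w.2 - x.2) with ⟨a, _⟩ | ⟨a, _⟩ <;> rw [abs_lt] at * <;> constructor <;> omega)
      simp only [lap2] at e1 e2 ⊢
      linarith) hv
  have e : 2 * (2 * M / n) / n = 4 * M / (n : ℝ) ^ 2 := by
    field_simp
    ring
  rw [e] at key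
  refine le_trans (le_of_eq ?_) key
  congr 1
  simp only [mixD]
  ring

end Vale.Agent.P155.E1
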