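import Vale.Agent.P155.A.TempGeo
import Vale.Agent.P155.A.JCT2
import Vale.Agent.P155.E1.Mix

/-!
# P155, block E1: deep points are vertices of the Temperleyan graph
-/

namespace Vale.Agent.P155.E1

open Finset

theorem dn_le_iff' {x y : Pt} {r : ℕ} : dn x y ≤ r ↔ y ∈ box x r := by
  rw [mem_box', dn, dinf]
  have h1 := abs_nonneg (x.1 - y.1)
  rw [abs_sub_comm y.1, abs_sub_comm y.2]
  constructor
  · intro h
    have : max |x.1 - y.1| |x.2 - y.2| ≤ (r : ℤ) := by
      have := Int.self_le_toNat (max |x.1 - y.1| |x.2 - y.2|)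
      have h' : ((max |x.1 - y.1| |x.2 - y.2|).toNat : ℤ) ≤ r := by exact_mod_cast h
      linarith
    exact max_le_iff.1 this
  · rintro ⟨h2, h3⟩
    have : max |x.1 - y.1| |x.2 - y.2| ≤ (r : ℤ) := max_le h2 h3
    omega

theorem mem_of_lt_dF {O : Set Pt} {x y : Pt} (h : dn x y < dF O x) : y ∈ O := by
  by_contra hc
  have := Nat.sInf_le (s := {r | ∃ y, y ∉ O ∧ dn x y ≤ r}) ⟨y, hc, le_refl _⟩
  unfold dF at h
  omega

theorem mem_V_of_faces {T : Temp} {v : Pt}
    (h : ∀ f : Pt, v.1 - 1 ≤ f.1 → f.1 ≤ v.1 → v.2 - 1 ≤ f.2 → f.2 ≤ v.2 → f ∈ T.faceSet) :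
    v ∈ T.V := by
  rw [Temp.mem_V]
  constructor
  · obtain ⟨f, hf, h1, h2, h3, h4⟩ := h v (by omega) (by omega) (by omega) (by omega)
    exact ⟨f, hf, h1, by omega, h3, by omega⟩
  · rintro rfl
    obtain ⟨F, hF, hout⟩ := LatCycle.edge_outside T.i0
    obtain ⟨⟨hc1, hc2⟩, _⟩ := hF
    apply hout
    -- the fine face of the cell `F` touching the fine vertex
    have hface := h (if F.1 = (T.γ.c T.i0).1 then 2 * (T.γ.c T.i0).1 else 2 * (T.γ.c T.i0).1 - 1,
      if F.2 = (T.γ.c T.i0).2 then 2 * (T.γ.c T.i0).2 else 2 * (T.γ.c T.i0).2 - 1)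
      (by simp only [Temp.v0]; split_ifs <;> omega) (by simp only [Temp.v0]; split_ifs <;> omega)
      (by simp only [Temp.v0]; split_ifs <;> omega) (by simp only [Temp.v0]; split_ifs <;> omega)
    obtain ⟨G, hG, h1, h2, h3, h4⟩ := hface
    simp only at h1 h2 h3 h4
    have hFG : G = F := by
      apply Prod.ext
      · rcases hc1 with hc1 | hc1
        · rw [if_pos hc1] at h1 h2; omega
        · rw [if_neg (by omega)] at h1 h2; omega
      · rcases hc2 with hc2 | hc2
        · rw [if_pos hc2] at h3 h4; omega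
        · rw [if_neg (by omega)] at h3 h4; omega
    rw [hFG] at hG
    exact hG

theorem mem_V_of_dF {T : Temp} {x v : Pt} {n : ℕ} (h : n + 1 < dF T.faceSet x) (hv : v ∈ box x n) :
    v ∈ T.V := by
  apply mem_V_of_faces
  intro f h1 h2 h3 h4
  apply mem_of_lt_dF
  refine lt_of_le_of_lt (dn_le_iff'.2 ?_) h
  rw [mem_box'] at *
  obtain ⟨k1, k2⟩ := hv
  push_cast
  constructor <;> rw [abs_le] at * <;> constructor <;> omega

end Vale.Agent.P155.E1
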