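import Vale.Agent.P155.E1.Mix

/-!
# P155, block E1: the mean height tested against the Laplacian of a bump
-/

namespace Vale.Agent.P155.E1

open Finset

theorem finsum_shift (a b : ℤ) (ψ H : Pt → ℝ) :
    ∑ᶠ f : Pt, ψ (f.1 + a, f.2 + b) * H f = ∑ᶠ f : Pt, ψ f * H (f.1 - a, f.2 - b) := by
  rw [← finsum_comp_equiv (Equiv.addRight ((a, b) : Pt))
    (f := fun f : Pt => ψ f * H (f.1 - a, f.2 - b))]
  refine finsum_congr fun f => ?_
  have e : (Equiv.addRight ((a, b) : Pt)) f = (f.1 + a, f.2 + b) := rfl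
  rw [e]
  simp only [add_sub_cancel_right]

theorem finite_shift {ψ : Pt → ℝ} (h : (Function.support ψ).Finite) (a b : ℤ) (H : Pt → ℝ) :
    (Function.support fun f : Pt => ψ (f.1 + a, f.2 + b) * H f).Finite := by
  have h1 : (Function.support fun f : Pt => ψ (f.1 + a, f.2 + b)).Finite := by
    have : (Function.support fun f : Pt => ψ (f.1 + a, f.2 + b)) =
        (fun f : Pt => (f.1 + a, f.2 + b)) ⁻¹' Function.support ψ := rfl
    rw [this]
    apply h.preimage
    intro p _ q _ hpq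
    simp only [Prod.mk.injEq, add_left_inj] at hpq
    exact Prod.ext hpq.1 hpq.2
  refine h1.subset ?_
  intro f hf hf0
  apply hf
  change ψ (f.1 + a, f.2 + b) = 0 at hf0
  simp [hf0]

theorem finite_left {ψ : Pt → ℝ} (h : (Function.support ψ).Finite) (G : Pt → ℝ) :
    (Function.support fun f : Pt => ψ f * G f).Finite := by
  refine h.subset ?_
  intro f hf hf0
  apply hf
  change ψ f = 0 at hf0
  simp [hf0]

/-- summation by parts for the step-2 Laplacian -/
theorem parts_lap2 {ψ : Pt → ℝ} (h : (Function.support ψ).Finite) (H : Pt → ℝ) :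
    ∑ᶠ f : Pt, lap2 ψ f * H f = ∑ᶠ f : Pt, ψ f * lap2 H f := by
  have e1 : (fun f : Pt => lap2 ψ f * H f) = fun f : Pt =>
      ((((ψ (f.1 + 2, f.2 + 0) * H f) + (ψ (f.1 + (-2), f.2 + 0) * H f))
        + (ψ (f.1 + 0, f.2 + 2) * H f)) + (ψ (f.1 + 0, f.2 + (-2)) * H f))
        - 4 * (ψ f * H f) := by
    funext f
    simp only [lap2, add_zero, ← sub_eq_add_neg]
    ring
  have e2 : (fun f : Pt => ψ f * lap2 H f) = fun f : Pt =>
      ((((ψ f * H (f.1 - 2, f.2 - 0)) + (ψ f * H (f.1 - (-2), f.2 - 0)))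
        + (ψ f * H (f.1 - 0, f.2 - 2))) + (ψ f * H (f.1 - 0, f.2 - (-2))))
        - 4 * (ψ f * H f) := by
    funext f
    simp only [lap2, sub_zero, sub_neg_eq_add]
    ring
  have f1 := finite_shift h 2 0 H
  have f2 := finite_shift h (-2) 0 H
  have f3 := finite_shift h 0 2 H
  have f4 := finite_shift h 0 (-2) H
  have f5 := finite_left h H
  have g1 := finite_left h (fun f => H (f.1 - 2, f.2 - 0))
  have g2 := finite_left h (fun f => H (f.1 - (-2), f.2 - 0))
  have g3 := finite_left h (fun f => H (f.1 - 0, f.2 - 2))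
  have g4 := finite_left h (fun f => H (f.1 - 0, f.2 - (-2)))
  have f12 := (f1.union f2).subset (Function.support_add _ _)
  have f123 := (f12.union f3).subset (Function.support_add _ _)
  have f1234 := (f123.union f4).subset (Function.support_add _ _)
  have g12 := (g1.union g2).subset (Function.support_add _ _)
  have g123 := (g12.union g3).subset (Function.support_add _ _)
  have g1234 := (g123.union g4).subset (Function.support_add _ _)
  have f5' : (Function.support fun f : Pt => 4 * (ψ f * H f)).Finite := by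
    refine f5.subset ?_
    intro f hf hf0
    apply hf
    change ψ f * H f = 0 at hf0
    simp [hf0]
  rw [e1, e2, finsum_sub_distrib f1234 f5', finsum_add_distrib f123 f4,
    finsum_add_distrib f12 f3, finsum_add_distrib f1 f2, finsum_sub_distrib g1234 f5',
    finsum_add_distrib g123 g4, finsum_add_distrib g12 g3, finsum_add_distrib g1 g2,
    finsum_shift, finsum_shift, finsum_shift, finsum_shift]

/-- summation by parts for one difference, first coordinate -/
theorem parts_x {S : Pt → ℝ} (h : (Function.support S).Finite) (H : Pt → ℝ) :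
    ∑ᶠ f : Pt, (S (f.1 + 1, f.2) - S f) * H f = ∑ᶠ f : Pt, S f * (H (f.1 - 1, f.2) - H f) := by
  have e1 : (fun f : Pt => (S (f.1 + 1, f.2) - S f) * H f) = fun f : Pt =>
      (S (f.1 + 1, f.2 + 0) * H f) - (S f * H f) := by
    funext f; simp only [add_zero]; ring
  have e2 : (fun f : Pt => S f * (H (f.1 - 1, f.2) - H f)) = fun f : Pt =>
      (S f * H (f.1 - 1, f.2 - 0)) - (S f * H f) := by
    funext f; simp only [sub_zero]; ring
  rw [e1, e2, finsum_sub_distrib (finite_shift h 1 0 H) (finite_left h H),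
    finsum_sub_distrib (finite_left h (fun f => H (f.1 - 1, f.2 - 0))) (finite_left h H),
    finsum_shift]

theorem parts_y {S : Pt → ℝ} (h : (Function.support S).Finite) (H : Pt → ℝ) :
    ∑ᶠ f : Pt, (S (f.1, f.2 + 1) - S f) * H f = ∑ᶠ f : Pt, S f * (H (f.1, f.2 - 1) - H f) := by
  have e1 : (fun f : Pt => (S (f.1, f.2 + 1) - S f) * H f) = fun f : Pt =>
      (S (f.1 + 0, f.2 + 1) * H f) - (S f * H f) := by
    funext f; simp only [add_zero]; ring
  have e2 : (fun f : Pt => S f * (H (f.1, f.2 - 1) - H f)) = fun f : Pt =>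
      (S f * H (f.1 - 0, f.2 - 1)) - (S f * H f) := by
    funext f; simp only [sub_zero]; ring
  rw [e1, e2, finsum_sub_distrib (finite_shift h 0 1 H) (finite_left h H),
    finsum_sub_distrib (finite_left h (fun f => H (f.1 - 0, f.2 - 1))) (finite_left h H),
    finsum_shift]

theorem card_box (x : Pt) (r : ℕ) : ((box x r).card : ℝ) = (2 * r + 1) ^ 2 := by
  unfold box
  rw [card_product, Int.card_Icc, Int.card_Icc]
  have e1 : (x.1 + (r : ℤ) + 1 - (x.1 - r)).toNat = 2 * r + 1 := by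
    have : x.1 + (r : ℤ) + 1 - (x.1 - r) = ((2 * r + 1 : ℕ) : ℤ) := by push_cast; ring
    rw [this, Int.toNat_natCast]
  have e2 : (x.2 + (r : ℤ) + 1 - (x.2 - r)).toNat = 2 * r + 1 := by
    have : x.2 + (r : ℤ) + 1 - (x.2 - r) = ((2 * r + 1 : ℕ) : ℤ) := by push_cast; ring
    rw [this, Int.toNat_natCast]
  rw [e1, e2]
  push_cast
  ring

/-- size of a pairing supported in a box -/
theorem abs_finsum_le {a b : Pt → ℝ} {x : Pt} {r : ℕ} {A B : ℝ}
    (hs : ∀ f, f ∉ box x r → a f = 0) (ha : ∀ f ∈ box x r, |a f| ≤ A)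
    (hb : ∀ f ∈ box x r, |b f| ≤ B) (hA : 0 ≤ A) :
    |∑ᶠ f : Pt, a f * b f| ≤ (2 * r + 1) ^ 2 * (A * B) := by
  have hsub : (Function.support fun f : Pt => a f * b f) ⊆ (box x r : Set Pt) := by
    intro f hf
    by_contra hfb
    exact hf (by simp [hs f hfb])
  rw [finsum_eq_sum_of_support_subset _ hsub]
  refine (abs_sum_le_sum_abs _ _).trans ?_
  rw [← card_box x r, ← nsmul_eq_mul]
  refine sum_le_card_nsmul _ _ _ ?_
  intro f hf
  rw [abs_mul]
  exact mul_le_mul (ha f hf) (hb f hf) (abs_nonneg _) hA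

/-- **E1.** `H` has increments `R` and `R` is in the kernel of the Kasteleyn matrix in both
variables: then `⟨lap ψ, H⟩` is tiny for every bump `ψ`. -/
theorem E1_explicit {R : Pt → Pt → ℝ} {H ψ : Pt → ℝ} {x : Pt} {T t n : ℕ} {M Hψ : ℝ}
    (ht : 1 ≤ t) (hn : 1 ≤ n) (hT : t + 2 * n + 8 ≤ T)
    (hR : Rel R x T)
    (hM : ∀ b w, Black b → White w → b ∈ box x T → w ∈ box x T → |R b w| ≤ M)
    (hI : ∀ f ∈ box x (t + 8), IncrAt R H f) (hψ : IsBump x t Hψ ψ) :
    |∑ᶠ f : Pt, lap ψ f * H f| ≤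
      Hψ * M * (4 * (2 * t + 1) ^ 2 / (n : ℝ) ^ 2 + (2 * t + 7) ^ 2 / (2 * (t : ℝ) ^ 3)) := by
  obtain ⟨hs, hd⟩ := hψ
  have hn0 : (0 : ℝ) < n := by exact_mod_cast hn
  have ht0 : (0 : ℝ) < t := by exact_mod_cast ht
  have hfin : (Function.support ψ).Finite := by
    refine (box x t).finite_toSet.subset ?_
    intro f hf
    by_contra hfb
    exact hf (hs f hfb)
  have hH0 : 0 ≤ Hψ := by
    have := hd 0 0 (by norm_num) x
    simp only [Function.iterate_zero, id, pow_zero, add_zero, mul_one] at this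
    exact (abs_nonneg _).trans this
  have hψ0 : ∀ f, |ψ f| ≤ Hψ := by
    intro f
    have := hd 0 0 (by norm_num) f
    simpa using this
  -- size of increments
  have hRs : ∀ u v : Pt, Adj u v → u ∈ box x T → v ∈ box x T → |Rs R u v| ≤ M := by
    intro u v huv hu hv
    unfold Rs
    have hpar : (u.1 + u.2 + v.1 + v.2) % 2 = 1 := by
      unfold Adj at huv
      rcases abs_cases (u.1 - v.1) with ⟨h1, _⟩ | ⟨h1, _⟩ <;>
        rcases abs_cases (u.2 - v.2) with ⟨h2, _⟩ | ⟨h2, _⟩ <;> omega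
    split_ifs with hb
    · refine hM u v hb ?_ hu hv
      unfold Black at hb
      unfold White
      rw [Int.even_iff] at hb
      rw [Int.odd_iff]; omega
    · refine hM v u ?_ ?_ hv hu
      · unfold Black at hb ⊢
        rw [Int.even_iff] at hb ⊢
        omega
      · unfold Black at hb
        unfold White
        rw [Int.even_iff] at hb
        rw [Int.odd_iff]; omega
  have hvx : ∀ f ∈ box x (t + 3), |H (f.1 - 1, f.2) - H f| ≤ M := by
    intro f hf
    rw [mem_box'] at hf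
    have hf8 : f ∈ box x (t + 8) := by
      rw [mem_box']; push_cast at hf ⊢; constructor <;> linarith [hf.1, hf.2]
    have := (hI f hf8).horiz
    rw [abs_sub_comm, this, abs_mul, abs_sg, one_mul]
    apply hRs
    · unfold Adj; simp
    · rw [mem_box']; push_cast at hf ⊢; constructor <;> omega
    · rw [mem_box']; simp only; push_cast at hf ⊢
      constructor
      · omega
      · rcases hf with ⟨h1, h2⟩
        rw [abs_le] at *; constructor <;> omega
  have hvy : ∀ f ∈ box x (t + 3), |H (f.1, f.2 - 1) - H f| ≤ M := by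
    intro f hf
    rw [mem_box'] at hf
    have hf8 : f ∈ box x (t + 8) := by
      rw [mem_box']; push_cast at hf ⊢; constructor <;> linarith [hf.1, hf.2]
    have := (hI f hf8).vert
    rw [abs_sub_comm, this]
    apply hRs
    · unfold Adj; simp
    · rw [mem_box']; push_cast at hf ⊢; constructor <;> omega
    · rw [mem_box']; simp only; push_cast at hf ⊢
      constructor
      · rcases hf with ⟨h1, h2⟩
        rw [abs_le] at *; constructor <;> omega
      · omega
  -- the pointwise bound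
  have hlap2 : ∀ f ∈ box x t, |lap2 H f| ≤ 4 * (4 * M / (n : ℝ) ^ 2) := by
    intro f hf
    rw [mem_box'] at hf
    obtain ⟨hf1, hf2⟩ := hf
    have near : ∀ g : Pt, ∀ d : ℤ, |g.1 - f.1| ≤ d → |g.2 - f.2| ≤ d →
        |g.1 - x.1| ≤ t + d ∧ |g.2 - x.2| ≤ t + d := by
      intro g d h1 h2
      constructor <;> rw [abs_le] at * <;> constructor <;> omega
    refine abs_lap2_le (R := R) ?_ ?_ ?_ ?_
    · intro g h1 h2
      obtain ⟨k1, k2⟩ := near g 2 h1 h2
      exact hI g (by rw [mem_box']; constructor <;> omega)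
    · intro w' w hw' hw h1 h2 h3 h4
      obtain ⟨k1, k2⟩ := near w' 3 h1 h2
      obtain ⟨k3, k4⟩ := near w 3 h3 h4
      exact hR.L w' w hw' hw (by rw [mem_box']; constructor <;> omega)
        (by rw [mem_box']; constructor <;> omega)
    · intro w' w hw' hw h1 h2 h3 h4
      obtain ⟨k1, k2⟩ := near w' 3 h1 h2
      obtain ⟨k3, k4⟩ := near w 3 h3 h4
      exact hR.Rr w' w hw' hw (by rw [mem_box']; constructor <;> omega)
        (by rw [mem_box']; constructor <;> omega)
    · intro b w u v hb hw h1 h2 h3 h4 hu hv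
      obtain ⟨k1, k2⟩ := near b 1 h1 h2
      obtain ⟨k3, k4⟩ := near w 1 h3 h4
      exact mixD_le hR hM hn hb hw (by omega) (by omega) (by omega) (by omega) hu hv
  -- the decomposition
  set Sx : Pt → ℝ := fun f => (Dx^[3] ψ) (f.1 - 2, f.2) with hSx
  set Sy : Pt → ℝ := fun f => (Dy^[3] ψ) (f.1, f.2 - 2) with hSy
  have hdec : ∀ f, lap ψ f = (1 / 4) * lap2 ψ f - (1 / 4) * (Sx (f.1 + 1, f.2) - Sx f)
      - (1 / 4) * (Sy (f.1, f.2 + 1) - Sy f) := by
    intro f
    simp only [hSx, hSy, lap, lap2, Function.iterate_succ, Function.iterate_zero, Function.comp,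
      Dx, Dy, id]
    have a1 : f.1 + 1 - 2 = f.1 - 1 := by ring
    have a2 : f.1 - 1 + 1 = f.1 := by ring
    have a3 : f.1 - 2 + 1 = f.1 - 1 := by ring
    have a4 : f.1 + 1 + 1 = f.1 + 2 := by ring
    have b1 : f.2 + 1 - 2 = f.2 - 1 := by ring
    have b2 : f.2 - 1 + 1 = f.2 := by ring
    have b3 : f.2 - 2 + 1 = f.2 - 1 := by ring
    have b4 : f.2 + 1 + 1 = f.2 + 2 := by ring
    simp only [a1, a2, a3, a4, b1, b2, b3, b4]
    ring
  have zero_far : ∀ f : Pt, ∀ a b : ℤ, f ∉ box x (t + 3) → |a| ≤ 3 → |b| ≤ 3 →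
      ψ (f.1 + a, f.2 + b) = 0 := by
    intro f a b hf ha hb
    apply hs
    intro hmem
    apply hf
    rw [mem_box'] at hmem ⊢
    simp only at hmem
    push_cast
    obtain ⟨h1, h2⟩ := hmem
    constructor <;> rw [abs_le] at * <;> constructor <;> omega
  have hSx0 : ∀ f, f ∉ box x (t + 3) → Sx f = 0 := by
    intro f hf
    simp only [hSx, Function.iterate_succ, Function.iterate_zero, Function.comp, Dx, id]
    have a1 : f.1 - 2 + 1 + 1 + 1 = f.1 + 1 := by ring
    have a2 : f.1 - 2 + 1 + 1 = f.1 + 0 := by ring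
    have a3 : f.1 - 2 + 1 = f.1 + (-1) := by ring
    have a4 : f.1 - 2 = f.1 + (-2) := by ring
    have b0 : f.2 = f.2 + 0 := by ring
    rw [a1, a2, a3, a4]
    rw [b0]
    rw [zero_far f 1 0 hf (by norm_num) (by norm_num), zero_far f 0 0 hf (by norm_num) (by norm_num),
      zero_far f (-1) 0 hf (by norm_num) (by norm_num), zero_far f (-2) 0 hf (by norm_num) (by norm_num)]
    ring
  have hSy0 : ∀ f, f ∉ box x (t + 3) → Sy f = 0 := by
    intro f hf
    simp only [hSy, Function.iterate_succ, Function.iterate_zero, Function.comp, Dy, id]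
    have a1 : f.2 - 2 + 1 + 1 + 1 = f.2 + 1 := by ring
    have a2 : f.2 - 2 + 1 + 1 = f.2 + 0 := by ring
    have a3 : f.2 - 2 + 1 = f.2 + (-1) := by ring
    have a4 : f.2 - 2 = f.2 + (-2) := by ring
    have b0 : f.1 = f.1 + 0 := by ring
    rw [a1, a2, a3, a4]
    rw [b0]
    rw [zero_far f 0 1 hf (by norm_num) (by norm_num), zero_far f 0 0 hf (by norm_num) (by norm_num),
      zero_far f 0 (-1) hf (by norm_num) (by norm_num), zero_far f 0 (-2) hf (by norm_num) (by norm_num)]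
    ring
  have hSxb : ∀ f, |Sx f| ≤ Hψ * ((t : ℝ)⁻¹) ^ 3 := fun f => hd 3 0 (by norm_num) _
  have hSyb : ∀ f, |Sy f| ≤ Hψ * ((t : ℝ)⁻¹) ^ 3 := fun f => hd 0 3 (by norm_num) _
  have hSxf : (Function.support Sx).Finite := by
    refine (box x (t + 3)).finite_toSet.subset ?_
    intro f hf
    by_contra hfb
    exact hf (hSx0 f hfb)
  have hSyf : (Function.support Sy).Finite := by
    refine (box x (t + 3)).finite_toSet.subset ?_
    intro f hf
    by_contra hfb
    exact hf (hSy0 f hfb)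
  have hl2f : (Function.support (lap2 ψ)).Finite := by
    refine (box x (t + 3)).finite_toSet.subset ?_
    intro f hf
    by_contra hfb
    apply hf
    have c1 := zero_far f 2 0 hfb (by norm_num) (by norm_num)
    have c2 := zero_far f (-2) 0 hfb (by norm_num) (by norm_num)
    have c3 := zero_far f 0 2 hfb (by norm_num) (by norm_num)
    have c4 := zero_far f 0 (-2) hfb (by norm_num) (by norm_num)
    have c5 := zero_far f 0 0 hfb (by norm_num) (by norm_num)
    simp only [add_zero, ← sub_eq_add_neg] at c1 c2 c3 c4 c5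
    simp only [lap2, c1, c2, c3, c4]
    change 0 + 0 + 0 + 0 - 4 * ψ (f.1, f.2) = 0
    rw [c5]; ring
  have hdxf : (Function.support fun f : Pt => Sx (f.1 + 1, f.2) - Sx f).Finite := by
    refine (box x (t + 4)).finite_toSet.subset ?_
    intro f hf
    by_contra hfb
    apply hf
    have q1 : f ∉ box x (t + 3) := by
      intro h; apply hfb; rw [mem_coe, mem_box'] at *; push_cast at *; constructor <;> linarith [h.1, h.2]
    have q2 : (f.1 + 1, f.2) ∉ box x (t + 3) := by
      intro h; apply hfb; rw [mem_coe, mem_box'] at *; push_cast at *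
      obtain ⟨h1, h2⟩ := h
      constructor <;> rw [abs_le] at * <;> constructor <;> omega
    change Sx (f.1 + 1, f.2) - Sx f = 0
    rw [hSx0 _ q1, hSx0 _ q2, sub_zero]
  have hdyf : (Function.support fun f : Pt => Sy (f.1, f.2 + 1) - Sy f).Finite := by
    refine (box x (t + 4)).finite_toSet.subset ?_
    intro f hf
    by_contra hfb
    apply hf
    have q1 : f ∉ box x (t + 3) := by
      intro h; apply hfb; rw [mem_coe, mem_box'] at *; push_cast at *; constructor <;> linarith [h.1, h.2]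
    have q2 : (f.1, f.2 + 1) ∉ box x (t + 3) := by
      intro h; apply hfb; rw [mem_coe, mem_box'] at *; push_cast at *
      obtain ⟨h1, h2⟩ := h
      constructor <;> rw [abs_le] at * <;> constructor <;> omega
    change Sy (f.1, f.2 + 1) - Sy f = 0
    rw [hSy0 _ q1, hSy0 _ q2, sub_zero]
  have key : ∑ᶠ f : Pt, lap ψ f * H f = (1 / 4) * ∑ᶠ f : Pt, ψ f * lap2 H f
      - (1 / 4) * ∑ᶠ f : Pt, Sx f * (H (f.1 - 1, f.2) - H f)
      - (1 / 4) * ∑ᶠ f : Pt, Sy f * (H (f.1, f.2 - 1) - H f) := by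
    rw [← parts_lap2 hfin, ← parts_x hSxf, ← parts_y hSyf]
    have F1 := finite_left hl2f H
    have F2 := finite_left hdxf H
    have F3 := finite_left hdyf H
    rw [mul_finsum, mul_finsum, mul_finsum]
    have F1' : (Function.support fun f : Pt => (1 / 4 : ℝ) * (lap2 ψ f * H f)).Finite :=
      F1.subset (fun f hf hf0 => hf (by simp only [mul_eq_zero]; right; simpa using hf0))
    have F2' : (Function.support fun f : Pt => (1 / 4 : ℝ) * ((Sx (f.1 + 1, f.2) - Sx f) * H f)).Finite :=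
      F2.subset (fun f hf hf0 => hf (by simp only [mul_eq_zero]; right; simpa using hf0))
    have F3' : (Function.support fun f : Pt => (1 / 4 : ℝ) * ((Sy (f.1, f.2 + 1) - Sy f) * H f)).Finite :=
      F3.subset (fun f hf hf0 => hf (by simp only [mul_eq_zero]; right; simpa using hf0))
    rw [← finsum_sub_distrib F1' F2', ← finsum_sub_distrib
      ((F1'.union F2').subset (Function.support_sub _ _)) F3']
    refine finsum_congr fun f => ?_
    rw [hdec f]
    ring
  have T1 := abs_finsum_le (a := ψ) (b := lap2 H) (x := x) (r := t) hs (fun f _ => hψ0 f) hlap2 hH0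
  have T2 := abs_finsum_le (a := Sx) (b := fun f => H (f.1 - 1, f.2) - H f) (x := x) (r := t + 3)
    hSx0 (fun f _ => hSxb f) hvx (by positivity)
  have T3 := abs_finsum_le (a := Sy) (b := fun f => H (f.1, f.2 - 1) - H f) (x := x) (r := t + 3)
    hSy0 (fun f _ => hSyb f) hvy (by positivity)
  rw [key]
  have tri : |(1 / 4) * ∑ᶠ f : Pt, ψ f * lap2 H f
      - (1 / 4) * ∑ᶠ f : Pt, Sx f * (H (f.1 - 1, f.2) - H f)
      - (1 / 4) * ∑ᶠ f : Pt, Sy f * (H (f.1, f.2 - 1) - H f)| ≤
      (1 / 4) * |∑ᶠ f : Pt, ψ f * lap2 H f| + (1 / 4) * |∑ᶠ f : Pt, Sx f * (H (f.1 - 1, f.2) - H f)|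
      + (1 / 4) * |∑ᶠ f : Pt, Sy f * (H (f.1, f.2 - 1) - H f)| := by
    refine (abs_sub _ _).trans (add_le_add ((abs_sub _ _).trans (add_le_add ?_ ?_)) ?_) <;>
      rw [abs_mul, abs_of_pos (by norm_num : (0 : ℝ) < 1 / 4)]
  refine tri.trans ?_
  have e : Hψ * M * (4 * (2 * t + 1) ^ 2 / (n : ℝ) ^ 2 + (2 * t + 7) ^ 2 / (2 * (t : ℝ) ^ 3)) =
      (1 / 4) * ((2 * (t : ℝ) + 1) ^ 2 * (Hψ * (4 * (4 * M / (n : ℝ) ^ 2)))) +
      (1 / 4) * ((2 * ((t + 3 : ℕ) : ℝ) + 1) ^ 2 * (Hψ * ((t : ℝ)⁻¹) ^ 3 * M)) +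
      (1 / 4) * ((2 * ((t + 3 : ℕ) : ℝ) + 1) ^ 2 * (Hψ * ((t : ℝ)⁻¹) ^ 3 * M)) := by
    push_cast
    field_simp
    ring
  rw [e]
  gcongr

/-- **E1**, with the sub-box chosen. -/
theorem E1_main {R : Pt → Pt → ℝ} {H ψ : Pt → ℝ} {x : Pt} {T t : ℕ} {M Hψ : ℝ}
    (ht : 1 ≤ t) (hT : 32 * t ≤ T)
    (hR : Rel R x T)
    (hM : ∀ b w, Black b → White w → b ∈ box x T → w ∈ box x T → |R b w| ≤ M)
    (hI : ∀ f ∈ box x (t + 8), IncrAt R H f) (hψ : IsBump x t Hψ ψ) :
    |∑ᶠ f : Pt, lap ψ f * H f| ≤ 3000 * Hψ * M * (((t : ℝ) / T) ^ 2 + 1 / t) := by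
  have hn : 1 ≤ T / 4 := by omega
  have hH0 : 0 ≤ Hψ := by
    have := hψ.2 0 0 (by norm_num) x
    simp only [Function.iterate_zero, id, pow_zero, add_zero, mul_one] at this
    exact (abs_nonneg _).trans this
  have hM0 : 0 ≤ M := by
    have hb : ∃ b w : Pt, Black b ∧ White w ∧ b ∈ box x T ∧ w ∈ box x T := by
      rcases Int.even_or_odd (x.1 + x.2) with h | h
      · refine ⟨x, (x.1 + 1, x.2), h, ?_, ?_, ?_⟩
        · unfold White; simp only; grind
        · rw [mem_box']; simp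
        · rw [mem_box']; simp; omega
      · refine ⟨(x.1 + 1, x.2), x, ?_, h, ?_, ?_⟩
        · unfold Black; simp only; grind
        · rw [mem_box']; simp; omega
        · rw [mem_box']; simp
    obtain ⟨b, w, h1, h2, h3, h4⟩ := hb
    exact (abs_nonneg _).trans (hM b w h1 h2 h3 h4)
  refine (E1_explicit ht hn (by omega) hR hM hI hψ).trans ?_
  have ht0 : (1 : ℝ) ≤ t := by exact_mod_cast ht
  have hT8 : (T : ℝ) / 8 ≤ ((T / 4 : ℕ) : ℝ) := by
    have : T ≤ 8 * (T / 4) := by omega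
    have : (T : ℝ) ≤ 8 * ((T / 4 : ℕ) : ℝ) := by exact_mod_cast this
    linarith
  have hTpos : (0 : ℝ) < T := by
    have : 0 < T := by omega
    exact_mod_cast this
  have h1 : 4 * (2 * (t : ℝ) + 1) ^ 2 / ((T / 4 : ℕ) : ℝ) ^ 2 ≤ 2304 * ((t : ℝ) / T) ^ 2 := by
    have h9 : 4 * (2 * (t : ℝ) + 1) ^ 2 ≤ 36 * (t : ℝ) ^ 2 := by nlinarith
    calc 4 * (2 * (t : ℝ) + 1) ^ 2 / ((T / 4 : ℕ) : ℝ) ^ 2 ≤ 36 * (t : ℝ) ^ 2 / (T / 8) ^ 2 := by
          gcongr
      _ = 2304 * ((t : ℝ) / T) ^ 2 := by field_simp; ring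
  have h2 : (2 * (t : ℝ) + 7) ^ 2 / (2 * (t : ℝ) ^ 3) ≤ 3000 * (1 / (t : ℝ)) := by
    have h9 : (2 * (t : ℝ) + 7) ^ 2 ≤ 81 * (t : ℝ) ^ 2 := by nlinarith
    calc (2 * (t : ℝ) + 7) ^ 2 / (2 * (t : ℝ) ^ 3) ≤ 81 * (t : ℝ) ^ 2 / (2 * (t : ℝ) ^ 3) := by gcongr
      _ = (81 / 2) * (1 / (t : ℝ)) := by field_simp
      _ ≤ 3000 * (1 / (t : ℝ)) := by
        apply mul_le_mul_of_nonneg_right (by norm_num) (by positivity)
  have h3 : (0 : ℝ) ≤ ((t : ℝ) / T) ^ 2 := by positivity
  calc Hψ * M * (4 * (2 * t + 1) ^ 2 / ((T / 4 : ℕ) : ℝ) ^ 2 + (2 * t + 7) ^ 2 / (2 * (t : ℝ) ^ 3))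
      ≤ Hψ * M * (3000 * (((t : ℝ) / T) ^ 2 + 1 / t)) := by
        apply mul_le_mul_of_nonneg_left _ (mul_nonneg hH0 hM0)
        linarith
    _ = 3000 * Hψ * M * (((t : ℝ) / T) ^ 2 + 1 / t) := by ring

end Vale.Agent.P155.E1
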