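import Vale.Agent.P155.Skel
import Vale.Agent.P155.E1.Interior
import Vale.Agent.P155.E1.Glue
import Vale.Agent.P155.E1.Incr
import Vale.Agent.P155.E1.Main
import Vale.Agent.P155.J.Height

/-!
# P155, block E1: the bound for the conditional expectation of `h(Δψ)`
-/

namespace Vale.Agent.P155.E1

open Finset J Skel

/-- the exploration of the outside of the box -/
noncomputable abbrev Out (T : Temp) (x : Pt) (n : ℕ) : Expl := outside (Fk T.V 0) (box x n : Set Pt)

theorem sub_Vin {T : Temp} {B : Finset Pt} {m : Pt → Pt} (hm : m ∈ PM T.V) :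
    Sub T (Vin T.V B m) :=
  ⟨m, hm, fun _ hv => ⟨(mem_Vin.1 hv).1, Vin_closed (mem_PM.1 hm) hv⟩⟩

theorem adj_box {x u v : Pt} {n : ℕ} (h : Adj u v) (hu : u ∈ box x n) : v ∈ box x (n + 1) := by
  rw [mem_box'] at *
  unfold Adj at h
  obtain ⟨h1, h2⟩ := hu
  push_cast
  have h3 := abs_nonneg (u.1 - v.1)
  have h4 := abs_nonneg (u.2 - v.2)
  have h5 : |u.1 - v.1| ≤ 1 := by omega
  have h6 : |u.2 - v.2| ≤ 1 := by omega
  constructor <;> rw [abs_le] at * <;> constructor <;> omega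

theorem mem_Vin_of_box {T : Temp} {x v : Pt} {n : ℕ} {m : Pt → Pt} (hm : m ∈ PM T.V)
    (hd : n + 2 < dF T.faceSet x) (hv : v ∈ box x n) : v ∈ Vin T.V (box x (n + 1)) m := by
  have hvV : v ∈ T.V := mem_V_of_dF (by omega) hv
  rw [mem_Vin]
  refine ⟨hvV, ?_, adj_box ((mem_PM.1 hm).adj v hvV) hv⟩
  rw [mem_box'] at *
  push_cast
  constructor <;> linarith [hv.1, hv.2]

open Classical in
/-- one-point function under the conditional law, first copy -/
theorem cEx_edge_fst (hA : A_one) {T : Temp} {B : Finset Pt} {ω : Conf} (hω : ω ∈ DD T.V)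
    {w b : Pt} (hw : White w) (hwV : w ∈ Vin T.V B ω.1) (hbV : b ∈ Vin T.V B ω.1) (hadj : Adj w b) :
    cEx T.V (outside (Fk T.V 0) (B : Set Pt)) (fun ω' => if ω'.1 w = b then (1 : ℝ) else 0) ω =
      K w b * Kinv (Vin T.V B ω.1) b w := by
  rw [cEx_fst hω (fun m => if m w = b then (1 : ℝ) else 0)]
  simp only [glue_mem hwV]
  exact hA T _ (sub_Vin (mem_product.1 hω).1) w b hw hwV hbV hadj

open Classical in
/-- one-point function under the conditional law, second copy -/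
theorem cEx_edge_snd (hA : A_one) {T : Temp} {B : Finset Pt} {ω : Conf} (hω : ω ∈ DD T.V)
    {w b : Pt} (hw : White w) (hwV : w ∈ Vin T.V B ω.2) (hbV : b ∈ Vin T.V B ω.2) (hadj : Adj w b) :
    cEx T.V (outside (Fk T.V 0) (B : Set Pt)) (fun ω' => if ω'.2 w = b then (1 : ℝ) else 0) ω =
      K w b * Kinv (Vin T.V B ω.2) b w := by
  rw [cEx_snd hω (fun m => if m w = b then (1 : ℝ) else 0)]
  simp only [glue_mem hwV]
  exact hA T _ (sub_Vin (mem_product.1 hω).2) w b hw hwV hbV hadj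

theorem cEx_sub {V : Finset Pt} {X : Expl} (g k : Conf → ℝ) (ω : Conf) :
    cEx V X (fun ω' => g ω' - k ω') ω = cEx V X g ω - cEx V X k ω := avg_sub _ _ _

theorem cEx_cmul {V : Finset Pt} {X : Expl} (c : ℝ) (g : Conf → ℝ) (ω : Conf) :
    cEx V X (fun ω' => c * g ω') ω = c * cEx V X g ω := avg_mul_left _ _ _

theorem cEx_congr {V : Finset Pt} {X : Expl} {g k : Conf → ℝ} {ω : Conf}
    (h : ∀ ω' ∈ DD V, g ω' = k ω') : cEx V X g ω = cEx V X k ω :=
  avg_congr (fun a ha => h a (atom_sub ha))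

/-- difference of the inverse Kasteleyn matrices of the two copies -/
noncomputable def Rd (T : Temp) (x : Pt) (n : ℕ) (ω : Conf) (b w : Pt) : ℝ :=
  Kinv (Vin T.V (box x n) ω.1) b w - Kinv (Vin T.V (box x n) ω.2) b w

/-- the conditional mean height -/
noncomputable def Hm (T : Temp) (x : Pt) (n : ℕ) (ω : Conf) (f : Pt) : ℝ :=
  cEx T.V (Out T x n) (fun ω' => (h ω' f : ℝ)) ω

theorem incr (hA : A_one) {T : Temp} {x : Pt} {n : ℕ} {ω : Conf} (hω : ω ∈ DD T.V)
    (hd : n + 2 < dF T.faceSet x) {f : Pt} (hf : f ∈ box x n)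
    (hfr : (f.1 + 1, f.2) ∈ box x n) (hfu : (f.1, f.2 + 1) ∈ box x n) :
    IncrAt (Rd T x (n + 1) ω) (Hm T x (n + 1) ω) f := by
  classical
  obtain ⟨a, c⟩ := f
  have hω1 := (mem_product.1 hω).1
  have hω2 := (mem_product.1 hω).2
  have v1 := mem_Vin_of_box hω1 hd hf
  have v2 := mem_Vin_of_box hω2 hd hf
  have r1 := mem_Vin_of_box hω1 hd hfr
  have r2 := mem_Vin_of_box hω2 hd hfr
  have u1 := mem_Vin_of_box hω1 hd hfu
  have u2 := mem_Vin_of_box hω2 hd hfu
  simp only at r1 r2 u1 u2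
  have adjr : Adj (a, c) (a + 1, c) := by unfold Adj; simp
  have adju : Adj (a, c) (a, c + 1) := by unfold Adj; simp
  have adjr' : Adj (a + 1, c) (a, c) := by unfold Adj; simp
  have adju' : Adj (a, c + 1) (a, c) := by unfold Adj; simp
  have flip : ∀ u v : Pt, ∀ ω' ∈ DD T.V, ((if ω'.1 u = v then (1 : ℝ) else 0) =
      if ω'.1 v = u then 1 else 0) ∧ ((if ω'.2 u = v then (1 : ℝ) else 0) =
      if ω'.2 v = u then 1 else 0) := by
    intro u v ω' hω'
    have h1 := mem_PM.1 (mem_product.1 hω').1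
    have h2 := mem_PM.1 (mem_product.1 hω').2
    simp only [pm_flip h1 u v, pm_flip h2 u v, and_self]
  constructor
  · -- vertical increment
    have e1 : Hm T x (n + 1) ω (a, c) - Hm T x (n + 1) ω (a, c - 1) =
        (if Even (a + c) then -1 else 1) *
        (cEx T.V (Out T x (n + 1)) (fun ω' => if ω'.1 (a, c) = (a + 1, c) then (1 : ℝ) else 0) ω -
        cEx T.V (Out T x (n + 1)) (fun ω' => if ω'.2 (a, c) = (a + 1, c) then (1 : ℝ) else 0) ω) := by
      unfold Hm
      rw [← cEx_sub, ← cEx_sub, ← cEx_cmul]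
      apply cEx_congr
      intro ω' hω'
      have := h_vert hω' a c
      have h' : ((h ω' (a, c) : ℤ) : ℝ) - (h ω' (a, c - 1) : ℝ) = ((dv ω' a c : ℤ) : ℝ) := by
        exact_mod_cast this
      rw [h']
      unfold dv
      push_cast
      split_ifs <;> norm_num
    simp only
    rw [e1]
    unfold Rs Rd
    by_cases hb : Black ((a, c) : Pt)
    · have hE : Even (a + c) := hb
      have hW : White ((a + 1, c) : Pt) := by unfold White; simp only; grind
      rw [if_pos hE, if_pos hb]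
      have k1 := cEx_edge_fst hA hω hW r1 v1 adjr'
      have k2 := cEx_edge_snd hA hω hW r2 v2 adjr'
      have kk : K (a + 1, c) (a, c) = -1 := by
        have := K_left ((a + 1, c) : Pt); simpa using this
      rw [kk] at k1 k2
      have f1 : cEx T.V (Out T x (n + 1)) (fun ω' => if ω'.1 (a, c) = (a + 1, c) then (1 : ℝ) else 0) ω
          = cEx T.V (Out T x (n + 1)) (fun ω' => if ω'.1 (a + 1, c) = (a, c) then (1 : ℝ) else 0) ω :=
        cEx_congr (fun ω' hω' => (flip (a, c) (a + 1, c) ω' hω').1)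
      have f2 : cEx T.V (Out T x (n + 1)) (fun ω' => if ω'.2 (a, c) = (a + 1, c) then (1 : ℝ) else 0) ω
          = cEx T.V (Out T x (n + 1)) (fun ω' => if ω'.2 (a + 1, c) = (a, c) then (1 : ℝ) else 0) ω :=
        cEx_congr (fun ω' hω' => (flip (a, c) (a + 1, c) ω' hω').2)
      rw [f1, f2]
      unfold Out
      rw [k1, k2]
      ring
    · have hE : ¬ Even (a + c) := hb
      have hW : White ((a, c) : Pt) := by unfold White; exact Int.not_even_iff_odd.1 hb
      rw [if_neg hE, if_neg hb]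
      have k1 := cEx_edge_fst hA hω hW v1 r1 adjr
      have k2 := cEx_edge_snd hA hω hW v2 r2 adjr
      have kk : K (a, c) (a + 1, c) = 1 := K_right ((a, c) : Pt)
      rw [kk] at k1 k2
      unfold Out
      rw [k1, k2]
      ring
  · -- horizontal increment
    have e1 : Hm T x (n + 1) ω (a, c) - Hm T x (n + 1) ω (a - 1, c) =
        (if Even (a + c) then 1 else -1) *
        (cEx T.V (Out T x (n + 1)) (fun ω' => if ω'.1 (a, c) = (a, c + 1) then (1 : ℝ) else 0) ω -
        cEx T.V (Out T x (n + 1)) (fun ω' => if ω'.2 (a, c) = (a, c + 1) then (1 : ℝ) else 0) ω) := by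
      unfold Hm
      rw [← cEx_sub, ← cEx_sub, ← cEx_cmul]
      apply cEx_congr
      intro ω' hω'
      have := h_horiz hω' a c
      have h' : ((h ω' (a, c) : ℤ) : ℝ) - (h ω' (a - 1, c) : ℝ) = ((dh ω' a c : ℤ) : ℝ) := by
        exact_mod_cast this
      rw [h']
      unfold dh
      push_cast
      split_ifs <;> norm_num
    simp only
    rw [e1]
    unfold Rs Rd
    by_cases hb : Black ((a, c) : Pt)
    · have hE : Even (a + c) := hb
      have hW : White ((a, c + 1) : Pt) := by unfold White; simp only; grind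
      rw [if_pos hE, if_pos hb]
      have k1 := cEx_edge_fst hA hω hW u1 v1 adju'
      have k2 := cEx_edge_snd hA hω hW u2 v2 adju'
      have kk : K (a, c + 1) (a, c) = sg a := by
        have := K_down ((a, c + 1) : Pt)
        simp only [add_sub_cancel_right] at this
        rw [this, sg_add_one, neg_neg, sg_eq_of_even hE]
      rw [kk] at k1 k2
      have f1 : cEx T.V (Out T x (n + 1)) (fun ω' => if ω'.1 (a, c) = (a, c + 1) then (1 : ℝ) else 0) ω
          = cEx T.V (Out T x (n + 1)) (fun ω' => if ω'.1 (a, c + 1) = (a, c) then (1 : ℝ) else 0) ω :=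
        cEx_congr (fun ω' hω' => (flip (a, c) (a, c + 1) ω' hω').1)
      have f2 : cEx T.V (Out T x (n + 1)) (fun ω' => if ω'.2 (a, c) = (a, c + 1) then (1 : ℝ) else 0) ω
          = cEx T.V (Out T x (n + 1)) (fun ω' => if ω'.2 (a, c + 1) = (a, c) then (1 : ℝ) else 0) ω :=
        cEx_congr (fun ω' hω' => (flip (a, c) (a, c + 1) ω' hω').2)
      rw [f1, f2]
      unfold Out
      rw [k1, k2]
      ring
    · have hE : ¬ Even (a + c) := hb
      have hO : Odd (a + c) := Int.not_even_iff_odd.1 hE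
      have hW : White ((a, c) : Pt) := hO
      rw [if_neg hE, if_neg hb]
      have k1 := cEx_edge_fst hA hω hW v1 u1 adju
      have k2 := cEx_edge_snd hA hω hW v2 u2 adju
      have kk : K (a, c) (a, c + 1) = - sg a := by
        rw [K_up ((a, c) : Pt), sg_eq_of_odd hO]
      rw [kk] at k1 k2
      unfold Out
      rw [k1, k2]
      ring

theorem rel_Rd (hI : A_inv) {T : Temp} {x : Pt} {n t : ℕ} {ω : Conf} (hω : ω ∈ DD T.V)
    (hd : n + 2 < dF T.faceSet x) (ht : t ≤ n) : Rel (Rd T x (n + 1) ω) x t := by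
  have hω1 := (mem_product.1 hω).1
  have hω2 := (mem_product.1 hω).2
  have mono : ∀ {v : Pt}, v ∈ box x t → v ∈ box x n := by
    intro v hv
    rw [mem_box'] at *
    constructor <;> linarith [hv.1, hv.2, (by exact_mod_cast ht : (t : ℤ) ≤ n)]
  constructor
  · intro w' w hw' hw hm' hm
    have a1 := (hI T _ (sub_Vin (B := box x (n + 1)) hω1)).2.2.1 w w' hw hw'
      (mem_Vin_of_box hω1 hd (mono hm)) (mem_Vin_of_box hω1 hd (mono hm'))
    have a2 := (hI T _ (sub_Vin (B := box x (n + 1)) hω2)).2.2.1 w w' hw hw'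
      (mem_Vin_of_box hω2 hd (mono hm)) (mem_Vin_of_box hω2 hd (mono hm'))
    rw [sum_nbrs_K (fun b => Kinv (Vin T.V (box x (n + 1)) ω.1) b w)] at a1
    rw [sum_nbrs_K (fun b => Kinv (Vin T.V (box x (n + 1)) ω.2) b w)] at a2
    unfold Kop at a1 a2
    unfold RelL Rd
    linarith
  · intro b b' hb hb' hm hm'
    have a1 := (hI T _ (sub_Vin (B := box x (n + 1)) hω1)).2.2.2 b b' hb hb'
      (mem_Vin_of_box hω1 hd (mono hm)) (mem_Vin_of_box hω1 hd (mono hm'))
    have a2 := (hI T _ (sub_Vin (B := box x (n + 1)) hω2)).2.2.2 b b' hb hb'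
      (mem_Vin_of_box hω2 hd (mono hm)) (mem_Vin_of_box hω2 hd (mono hm'))
    have c1 : ∀ (F : Pt → ℝ), ∑ w ∈ nbrs b', F w * K w b' = KTop F b' := by
      intro F
      rw [← sum_nbrs_KT]
      exact sum_congr rfl (fun _ _ => mul_comm _ _)
    rw [c1 (fun w => Kinv (Vin T.V (box x (n + 1)) ω.1) b w)] at a1
    rw [c1 (fun w => Kinv (Vin T.V (box x (n + 1)) ω.2) b w)] at a2
    unfold KTop at a1 a2
    unfold RelR Rd
    linarith

/-- linearity: `E_ζ h(f) = ∑ f(x) E_ζ h(x)` for finitely supported `f` -/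
theorem cEx_hf {V : Finset Pt} {X : Expl} {g : Pt → ℝ} (hg : (Function.support g).Finite)
    (ω : Conf) :
    cEx V X (fun ω' => hf ω' g) ω = ∑ᶠ y : Pt, g y * cEx V X (fun ω' => (h ω' y : ℝ)) ω := by
  have e : ∀ k : Pt → ℝ, ∑ᶠ y : Pt, g y * k y = ∑ y ∈ hg.toFinset, g y * k y := by
    intro k
    apply finsum_eq_sum_of_support_subset
    intro y hy
    rw [Set.Finite.coe_toFinset]
    intro h0
    apply hy
    change g y = 0 at h0
    simp [h0]
  have e1 : (fun ω' => hf ω' g) = fun ω' => ∑ y ∈ hg.toFinset, g y * (h ω' y : ℝ) := by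
    funext ω'
    exact e _
  rw [e, e1]
  change avg _ _ = _
  rw [avg_sum]
  refine sum_congr rfl (fun y _ => ?_)
  exact avg_mul_left _ _ _

/-- **E1 for conditional expectations.** -/
theorem E1_cEx (hA : A_one) (hI : A_inv) {T : Temp} {x : Pt} {n t T' : ℕ} {ω : Conf}
    (hω : ω ∈ DD T.V) (hd : n + 1 < dF T.faceSet x) (ht : 1 ≤ t) (hT : 32 * t ≤ T')
    (hn : T' + 2 ≤ n) {M Hψ : ℝ} {ψ : Pt → ℝ}
    (hM : ∀ b w, Black b → White w → b ∈ box x T' → w ∈ box x T' →
      |Kinv (Vin T.V (box x n) ω.1) b w - Kinv (Vin T.V (box x n) ω.2) b w| ≤ M)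
    (hψ : IsBump x t Hψ ψ) :
    |cEx T.V (Out T x n) (fun ω' => hf ω' (lap ψ)) ω| ≤
      3000 * Hψ * M * (((t : ℝ) / T') ^ 2 + 1 / t) := by
  obtain ⟨n', rfl⟩ : ∃ n', n = n' + 1 := ⟨n - 1, by omega⟩
  have hfs : (Function.support (lap ψ)).Finite := fs_lap (FS.of_box hψ.1)
  rw [cEx_hf hfs]
  refine E1_main (R := Rd T x (n' + 1) ω) (H := Hm T x (n' + 1) ω) ht hT
    (rel_Rd hI hω (by omega) (by omega)) hM ?_ hψ
  intro f hf'
  have hm : ∀ g : Pt, |g.1 - f.1| ≤ 1 → |g.2 - f.2| ≤ 1 → g ∈ box x n' := by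
    intro g h1 h2
    rw [mem_box'] at *
    obtain ⟨h3, h4⟩ := hf'
    push_cast at *
    constructor <;> rw [abs_le] at * <;> constructor <;> omega
  exact incr hA hω (by omega) (hm f (by simp) (by simp)) (hm _ (by simp) (by simp))
    (hm _ (by simp) (by simp))

/-- **E1 on the good event.** -/
theorem E1_good (hA : A_one) (hI : A_inv) {T : Temp} {x : Pt} {n t T' : ℕ} {ω : Conf}
    (hω : ω ∈ DD T.V) (hd : n + 1 < dF T.faceSet x) (ht : 1 ≤ t) (hT : 32 * t ≤ T')
    (hn : T' + 2 ≤ n) {M Hψ : ℝ} {ψ : Pt → ℝ} {A : Pt → ℝ}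
    (h1 : ∀ b w, Black b → White w → b ∈ box x T' → w ∈ box x T' →
      |Kinv (Vin T.V (box x n) ω.1) b w - Kp A b w| ≤ M)
    (h2 : ∀ b w, Black b → White w → b ∈ box x T' → w ∈ box x T' →
      |Kinv (Vin T.V (box x n) ω.2) b w - Kp A b w| ≤ M)
    (hψ : IsBump x t Hψ ψ) :
    |cEx T.V (Out T x n) (fun ω' => hf ω' (lap ψ)) ω| ≤
      6000 * Hψ * M * (((t : ℝ) / T') ^ 2 + 1 / t) := by
  have := E1_cEx hA hI hω hd ht hT hn (M := 2 * M) (fun b w hb hw hbm hwm => by
    have a1 := abs_le.1 (h1 b w hb hw hbm hwm)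
    have a2 := abs_le.1 (h2 b w hb hw hbm hwm)
    rw [abs_le]; constructor <;> linarith [a1.1, a1.2, a2.1, a2.2]) hψ
  linarith

end Vale.Agent.P155.E1
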