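import Vale.Agent.P155.E.Iface
import Vale.Agent.P155.E1.Bridge

/-!
# P155, block E: `E_point` from `A_one` and `A_inv`
-/

namespace Vale.Agent.P155.E1

open Finset J Skel

theorem abs_dv_le (ω : Conf) (j y : ℤ) : |dv ω j y| ≤ 1 := by
  unfold dv
  split_ifs <;> simp

/-- trivial bound: two steps change the height by at most two -/
theorem abs_lap2_h_le {V : Finset Pt} {ω : Conf} (hω : ω ∈ DD V) (x : Pt) :
    |lap2 (fun f => (h ω f : ℝ)) x| ≤ 8 := by
  obtain ⟨a, c⟩ := x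
  have h1 := h_horiz hω (a + 2) c
  have h2 := h_horiz hω (a + 1) c
  have h3 := h_horiz hω a c
  have h4 := h_horiz hω (a - 1) c
  have v1 := h_vert hω a (c + 2)
  have v2 := h_vert hω a (c + 1)
  have v3 := h_vert hω a c
  have v4 := h_vert hω a (c - 1)
  rw [show a + 2 - 1 = a + 1 by ring] at h1
  rw [show a + 1 - 1 = a by ring] at h2
  rw [show a - 1 - 1 = a - 2 by ring] at h4
  rw [show c + 2 - 1 = c + 1 by ring] at v1
  rw [show c + 1 - 1 = c by ring] at v2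
  rw [show c - 1 - 1 = c - 2 by ring] at v4
  have d1 := abs_le.1 (abs_dh_le ω (a + 2) c)
  have d2 := abs_le.1 (abs_dh_le ω (a + 1) c)
  have d3 := abs_le.1 (abs_dh_le ω a c)
  have d4 := abs_le.1 (abs_dh_le ω (a - 1) c)
  have e1 := abs_le.1 (abs_dv_le ω a (c + 2))
  have e2 := abs_le.1 (abs_dv_le ω a (c + 1))
  have e3 := abs_le.1 (abs_dv_le ω a c)
  have e4 := abs_le.1 (abs_dv_le ω a (c - 1))
  have key : |h ω (a + 2, c) + h ω (a - 2, c) + h ω (a, c + 2) + h ω (a, c - 2) - 4 * h ω (a, c)|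
      ≤ 8 := by
    rw [abs_le]
    constructor <;> omega
  simp only [lap2]
  exact_mod_cast key

theorem cEx_lap2 {V : Finset Pt} {X : Expl} (ω : Conf) (x : Pt) :
    lap2 (fun f => cEx V X (fun ω' => (h ω' f : ℝ)) ω) x =
      cEx V X (fun ω' => lap2 (fun f => (h ω' f : ℝ)) x) ω := by
  simp only [lap2]
  simp only [cEx_eq_avg, avg_sub, avg_add, avg_mul_left]

theorem cEx_abs_le {V : Finset Pt} {X : Expl} {g : Conf → ℝ} {ω : Conf} {c : ℝ} (hc : 0 ≤ c)
    (h : ∀ ω' ∈ DD V, |g ω'| ≤ c) : |cEx V X g ω| ≤ c := by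
  have := norm_avg_le_const (s := atom V X ω) (g := g) (c := c) hc (fun a ha => by
    rw [Real.norm_eq_abs]; exact h a (atom_sub ha))
  rw [Real.norm_eq_abs] at this
  exact this

theorem e_point (hA : A_one) (hI : A_inv) : E.E_point := by
  intro A hPl κ ε hκ hκ' hε
  refine ⟨64 * 10 ^ 9, ?_⟩
  intro T x n hn hd ω hω g1 g2
  have hn1 : (1 : ℝ) ≤ n := by exact_mod_cast hn
  have hn0 : (0 : ℝ) < n := by linarith
  set T' := ⌊(n : ℝ) ^ (1 - κ) / 20⌋₊ with hT'
  change |lap2 (Hm T x n ω) x| ≤ _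
  by_cases hbig : 32 ≤ T'
  · -- the main case
    have hT'n : (T' : ℝ) ≤ n / 20 := by
      have h1 : (T' : ℝ) ≤ (n : ℝ) ^ (1 - κ) / 20 := Nat.floor_le (by positivity)
      have h2 : (n : ℝ) ^ (1 - κ) ≤ n := by
        calc (n : ℝ) ^ (1 - κ) ≤ (n : ℝ) ^ (1 : ℝ) :=
              Real.rpow_le_rpow_of_exponent_le hn1 (by linarith)
          _ = n := Real.rpow_one _
      linarith
    have hT'n' : 20 * T' ≤ n := by
      have : (20 : ℝ) * T' ≤ n := by linarith
      exact_mod_cast this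
    have hlow : (n : ℝ) ^ (1 - κ) ≤ 40 * T' := by
      have h1 := Nat.lt_floor_add_one ((n : ℝ) ^ (1 - κ) / 20)
      rw [← hT'] at h1
      have h2 : (1 : ℝ) ≤ T' := by
        have : 1 ≤ T' := by omega
        exact_mod_cast this
      linarith
    obtain ⟨n', rfl⟩ : ∃ n', n = n' + 1 := ⟨n - 1, by omega⟩
    set M : ℝ := 2 * ((n' + 1 : ℕ) : ℝ) ^ (-1 + κ + ε) with hMdef
    have hMb : ∀ b w, Black b → White w → b ∈ box x T' → w ∈ box x T' →
        |Rd T x (n' + 1) ω b w| ≤ M := by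
      intro b w hb hw hbm hwm
      have a1 := abs_le.1 (g1 b w hb hw hbm hwm)
      have a2 := abs_le.1 (g2 b w hb hw hbm hwm)
      unfold Rd
      rw [abs_le]
      constructor <;> linarith [a1.1, a1.2, a2.1, a2.2]
    have hRel : Rel (Rd T x (n' + 1) ω) x T' := rel_Rd hI hω (by omega) (by omega)
    set m := T' / 4 with hm
    have hm1 : 1 ≤ m := by omega
    have hself : ∀ g : Pt, ∀ d : ℕ, |g.1 - x.1| ≤ d → |g.2 - x.2| ≤ d → g ∈ box x d := by
      intro g d h1 h2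
      rw [mem_box']; exact ⟨h1, h2⟩
    have hmono : ∀ g : Pt, ∀ d e : ℕ, d ≤ e → g ∈ box x d → g ∈ box x e := by
      intro g d e hde hg
      rw [mem_box'] at *
      have : (d : ℤ) ≤ e := by exact_mod_cast hde
      exact ⟨by linarith [hg.1], by linarith [hg.2]⟩
    have hb : |lap2 (Hm T x (n' + 1) ω) x| ≤ 4 * (4 * M / (m : ℝ) ^ 2) := by
      refine abs_lap2_le (R := Rd T x (n' + 1) ω) ?_ ?_ ?_ ?_
      · intro g h1 h2
        have key : ∀ u : Pt, |u.1 - g.1| ≤ 1 → |u.2 - g.2| ≤ 1 → u ∈ box x n' := by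
          intro u h3 h4
          apply hmono u 3 n' (by omega)
          rw [mem_box']
          constructor <;> rw [abs_le] at * <;> constructor <;> omega
        exact incr hA hω (by omega) (key g (by simp) (by simp)) (key _ (by simp) (by simp))
          (key _ (by simp) (by simp))
      · intro w' w hw' hw h1 h2 h3 h4
        exact hRel.L w' w hw' hw (hmono _ 3 T' (by omega) (hself _ 3 h1 h2))
          (hmono _ 3 T' (by omega) (hself _ 3 h3 h4))
      · intro w' w hw' hw h1 h2 h3 h4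
        exact hRel.Rr w' w hw' hw (hmono _ 3 T' (by omega) (hself _ 3 h1 h2))
          (hmono _ 3 T' (by omega) (hself _ 3 h3 h4))
      · intro b w u v hb hw h1 h2 h3 h4 hu hv
        exact mixD_le hRel hMb hm1 hb hw (by omega) (by omega) (by omega) (by omega) hu hv
    refine hb.trans ?_
    have hm8 : (n' + 1 : ℕ) ^ (1 - κ) ≤ 320 * (m : ℝ) := by
      have : T' ≤ 8 * m := by omega
      have : (T' : ℝ) ≤ 8 * m := by exact_mod_cast this
      linarith
    have hmpos : (0 : ℝ) < m := by exact_mod_cast hm1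
    have hpos : (0 : ℝ) < ((n' + 1 : ℕ) : ℝ) ^ (1 - κ) := Real.rpow_pos_of_pos hn0 _
    have hsq : 1 / (m : ℝ) ^ 2 ≤ 102400 * ((n' + 1 : ℕ) : ℝ) ^ (-2 + 2 * κ) := by
      have e : ((n' + 1 : ℕ) : ℝ) ^ (-2 + 2 * κ) = 1 / (((n' + 1 : ℕ) : ℝ) ^ (1 - κ)) ^ 2 := by
        rw [← Real.rpow_natCast, ← Real.rpow_mul hn0.le, one_div, ← Real.rpow_neg hn0.le]
        congr 1
        push_cast
        ring
      rw [e, mul_one_div, div_le_div_iff₀ (by positivity) (by positivity)]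
      nlinarith [hm8, hpos, hmpos]
    calc 4 * (4 * M / (m : ℝ) ^ 2) = 32 * ((n' + 1 : ℕ) : ℝ) ^ (-1 + κ + ε) * (1 / (m : ℝ) ^ 2) := by
          rw [hMdef]; ring
      _ ≤ 32 * ((n' + 1 : ℕ) : ℝ) ^ (-1 + κ + ε) * (102400 * ((n' + 1 : ℕ) : ℝ) ^ (-2 + 2 * κ)) := by
          gcongr
      _ = 3276800 * (((n' + 1 : ℕ) : ℝ) ^ (-1 + κ + ε) * ((n' + 1 : ℕ) : ℝ) ^ (-2 + 2 * κ)) := by ring
      _ = 3276800 * ((n' + 1 : ℕ) : ℝ) ^ (-3 + 3 * κ + ε) := by
          rw [← Real.rpow_add hn0]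
          congr 2
          ring
      _ ≤ 64 * 10 ^ 9 * ((n' + 1 : ℕ) : ℝ) ^ (-3 + 3 * κ + ε) := by
          apply mul_le_mul_of_nonneg_right (by norm_num) (by positivity)
  · -- small boxes
    push Not at hbig
    have h8 : |lap2 (Hm T x n ω) x| ≤ 8 := by
      have : lap2 (Hm T x n ω) x = cEx T.V (Out T x n) (fun ω' => lap2 (fun f => (h ω' f : ℝ)) x) ω :=
        cEx_lap2 ω x
      rw [this]
      exact cEx_abs_le (by norm_num) (fun ω' hω' => abs_lap2_h_le hω' x)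
    refine h8.trans ?_
    have h1 : (n : ℝ) ^ (1 - κ) / 20 < 32 := by
      have h2 := Nat.lt_floor_add_one ((n : ℝ) ^ (1 - κ) / 20)
      rw [← hT'] at h2
      have h3 : (T' : ℝ) + 1 ≤ 32 := by
        have : T' + 1 ≤ 32 := hbig
        exact_mod_cast this
      linarith
    have h9 : (n : ℝ) ^ (9 / 10 : ℝ) ≤ 640 := by
      have : (n : ℝ) ^ (9 / 10 : ℝ) ≤ (n : ℝ) ^ (1 - κ) :=
        Real.rpow_le_rpow_of_exponent_le hn1 (by linarith)
      linarith
    have hn2 : (n : ℝ) ≤ 2000 := by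
      by_contra hc
      push Not at hc
      have h11 : (2000 : ℝ) ^ (9 / 10 : ℝ) ≤ (n : ℝ) ^ (9 / 10 : ℝ) :=
        Real.rpow_le_rpow (by norm_num) hc.le (by norm_num)
      have h12 : (640 : ℝ) < (2000 : ℝ) ^ (9 / 10 : ℝ) := by
        refine lt_of_pow_lt_pow_left₀ 10 (by positivity) ?_
        have e2 : ((2000 : ℝ) ^ (9 / 10 : ℝ)) ^ (10 : ℕ) = 2000 ^ (9 : ℕ) := by
          rw [← Real.rpow_natCast, ← Real.rpow_mul (by norm_num), ← Real.rpow_natCast]
          norm_num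
        rw [e2]
        norm_num
      linarith
    have h3 : (n : ℝ) ^ (-3 : ℝ) ≤ (n : ℝ) ^ (-3 + 3 * κ + ε) :=
      Real.rpow_le_rpow_of_exponent_le hn1 (by linarith)
    have h4 : (8 * 10 ^ 9 : ℝ)⁻¹ ≤ (n : ℝ) ^ (-3 : ℝ) := by
      rw [Real.rpow_neg hn0.le]
      apply inv_anti₀ (by positivity)
      have e : (n : ℝ) ^ (3 : ℝ) = (n : ℝ) ^ (3 : ℕ) := by rw [← Real.rpow_natCast]; norm_num
      rw [e]
      calc (n : ℝ) ^ 3 ≤ 2000 ^ 3 := by gcongr
        _ = 8 * 10 ^ 9 := by norm_num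
    have h5 : (8 * 10 ^ 9 : ℝ)⁻¹ * (64 * 10 ^ 9) = 8 := by norm_num
    nlinarith [h3, h4]

end Vale.Agent.P155.E1
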