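import Vale.Agent.P155.E.Iface
import Vale.Agent.P155.E1.Bridge

/-!
# P155, block E: `E_incr`, `E_in`
-/

namespace Vale.Agent.P155.E1

open Finset J Skel

theorem e_incr : E.E_incr := by
  intro V ω hω f
  obtain ⟨x, y⟩ := f
  have h1 := h_horiz hω x y
  have h2 := h_vert hω x y
  have h1' : ((h ω (x, y) : ℤ) : ℝ) - (h ω (x - 1, y) : ℝ) = ((dh ω x y : ℤ) : ℝ) := by
    exact_mod_cast h1
  have h2' : ((h ω (x, y) : ℤ) : ℝ) - (h ω (x, y - 1) : ℝ) = ((dv ω x y : ℤ) : ℝ) := by
    exact_mod_cast h2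
  simp only
  rw [h1', h2']
  unfold dh dv E.ss E.iv E.ih
  simp only
  push_cast
  constructor
  · split_ifs <;> norm_num
  · split_ifs <;> norm_num

theorem e_in : E.E_in := by
  intro T v hv
  apply mem_V_of_faces
  intro f h1 h2 h3 h4
  apply mem_of_lt_dF (x := v)
  have hf : f ∈ box v 1 := by
    rw [mem_box']
    constructor <;> rw [abs_le] <;> constructor <;> push_cast <;> omega
  exact lt_of_le_of_lt (dn_le_iff'.2 hf) hv

end Vale.Agent.P155.E1
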