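import Vale.Agent.P155.Defs2

/-!
# P155, block E1: the conditional mean height is nearly harmonic, pointwise form

`R b w` (black, white) is annihilated by the Kasteleyn matrix in both variables; `H` is a function
on faces whose increments are given by `R`. Then the step-2 Laplacian of `H` is a sum of four mixed
second differences of `R`.
-/

namespace Vale.Agent.P155.E1

open Finset

/-- `R` symmetrised: value on an edge given in any order. -/
def Rs (R : Pt → Pt → ℝ) (u v : Pt) : ℝ := if Black u then R u v else R v u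

/-- `H` has increments given by `R` at the face `f`. -/
structure IncrAt (R : Pt → Pt → ℝ) (H : Pt → ℝ) (f : Pt) : Prop where
  vert : H f - H (f.1, f.2 - 1) = Rs R f (f.1 + 1, f.2)
  horiz : H f - H (f.1 - 1, f.2) = sg f.1 * Rs R f (f.1, f.2 + 1)

/-- first relation (left kernel) at the white vertex `w'`, for the column `w` -/
def RelL (R : Pt → Pt → ℝ) (w' w : Pt) : Prop :=
  R (w'.1 + 1, w'.2) w - R (w'.1 - 1, w'.2) w
    + sg w'.2 * (R (w'.1, w'.2 + 1) w - R (w'.1, w'.2 - 1) w) = 0

/-- second relation (right kernel) at the black vertex `b'`, for the row `b` -/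
def RelR (R : Pt → Pt → ℝ) (b b' : Pt) : Prop :=
  R b (b'.1 - 1, b'.2) - R b (b'.1 + 1, b'.2)
    + sg b'.2 * (R b (b'.1, b'.2 + 1) - R b (b'.1, b'.2 - 1)) = 0

/-- mixed second difference with steps `2u`, `2v` -/
def mixD (R : Pt → Pt → ℝ) (b w u v : Pt) : ℝ :=
  R (b.1 + 2 * u.1, b.2 + 2 * u.2) (w.1 + 2 * v.1, w.2 + 2 * v.2)
    - R b (w.1 + 2 * v.1, w.2 + 2 * v.2) - R (b.1 + 2 * u.1, b.2 + 2 * u.2) w + R b w

/-- step-2 Laplacian -/
def lap2 (u : Pt → ℝ) (f : Pt) : ℝ :=
  u (f.1 + 2, f.2) + u (f.1 - 2, f.2) + u (f.1, f.2 + 2) + u (f.1, f.2 - 2) - 4 * u f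

theorem sg_add_one (y : ℤ) : sg (y + 1) = - sg y := by
  unfold sg
  by_cases h : Even y
  · have h1 : ¬ Even (y + 1) := by simpa [Int.even_add_one] using h
    simp [h, h1]
  · have h1 : Even (y + 1) := by simpa [Int.even_add_one] using h
    simp [h, h1]

theorem sg_sub_one (y : ℤ) : sg (y - 1) = - sg y := by
  have := sg_add_one (y - 1)
  rw [sub_add_cancel] at this
  rw [this, neg_neg]

theorem sg_mul_self (y : ℤ) : sg y * sg y = 1 := by
  unfold sg
  split_ifs <;> norm_num

theorem abs_sg (y : ℤ) : |sg y| = 1 := by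
  unfold sg
  split_ifs <;> norm_num

theorem sg_eq_of_even {x y : ℤ} (h : Even (x + y)) : sg y = sg x := by
  unfold sg
  rcases Int.even_or_odd x with hx | hx
  · have hy : Even y := by
      rw [Int.even_add] at h
      exact h.1 hx
    simp [hx, hy]
  · have hx' : ¬ Even x := by simpa using hx
    have hy : ¬ Even y := by
      rw [Int.even_add] at h
      exact fun hy => hx' (h.2 hy)
    simp [hx', hy]

theorem sg_eq_of_odd {x y : ℤ} (h : Odd (x + y)) : sg y = - sg x := by
  have : Even (x + (y + 1)) := by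
    rw [← add_assoc]
    exact h.add_one
  have h1 := sg_eq_of_even this
  rw [sg_add_one] at h1
  linarith

/-- black lower left corner: exact formula -/
theorem lap2_black {R : Pt → Pt → ℝ} {H : Pt → ℝ} {x y : ℤ} (hb : Even (x + y))
    (I : ∀ f : Pt, |f.1 - x| ≤ 2 → |f.2 - y| ≤ 2 → IncrAt R H f)
    (L : ∀ w' w : Pt, White w' → White w → |w'.1 - x| ≤ 3 → |w'.2 - y| ≤ 3 →
      |w.1 - x| ≤ 3 → |w.2 - y| ≤ 3 → RelL R w' w)
    (Rr : ∀ b b' : Pt, Black b → Black b' → |b.1 - x| ≤ 3 → |b.2 - y| ≤ 3 →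
      |b'.1 - x| ≤ 3 → |b'.2 - y| ≤ 3 → RelR R b b') :
    lap2 H (x, y) = sg x * (mixD R (x - 1, y + 1) (x + 1, y) (1, 0) (0, 1)
      + mixD R (x, y) (x, y + 1) (1, 0) (1, 0)
      - mixD R (x + 1, y - 1) (x - 1, y) (0, 1) (1, 0)
      + mixD R (x - 1, y + 1) (x - 1, y) (1, 0) (1, 0)) := by
  have B00 : Black (x, y) := hb
  have h3 := (I (x, y) (by simp) (by simp)).vert
  have h7 := (I (x, y) (by simp) (by simp)).horiz
  have h2 := (I (x, y + 1) (by simp) (by norm_num)).vert
  have h1 := (I (x, y + 2) (by simp) (by norm_num)).vert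
  have h4 := (I (x, y - 1) (by simp) (by norm_num)).vert
  have h6 := (I (x + 1, y) (by norm_num) (by simp)).horiz
  have h5 := (I (x + 2, y) (by norm_num) (by simp)).horiz
  have h8 := (I (x - 1, y) (by norm_num) (by simp)).horiz
  have b1 : Black (x, y + 2) := by unfold Black; simpa [← add_assoc, Int.even_add] using hb
  have b2 : ¬ Black (x, y + 1) := by unfold Black; rw [← add_assoc, Int.even_add_one]; simpa using hb
  have b4 : ¬ Black (x, y - 1) := by unfold Black; simp only; grind
  have b5 : Black (x + 2, y) := by unfold Black; simp only; grind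
  have b6 : ¬ Black (x + 1, y) := by unfold Black; simp only; grind
  have b8 : ¬ Black (x - 1, y) := by unfold Black; simp only; grind
  simp only [Rs, b1, b2, b4, b5, b6, b8, B00, if_true, if_false] at h1 h2 h3 h4 h5 h6 h7 h8
  -- relations
  have w1 : White (x, y + 1) := by unfold White; simp only; grind
  have w0 : White (x + 1, y) := by unfold White; simp only; grind
  have w2 : White (x + 1, y + 2) := by unfold White; simp only; grind
  have k1 := L (x, y + 1) (x + 1, y + 2) w1 w2 (by norm_num) (by norm_num) (by norm_num) (by norm_num)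
  have k2 := L (x + 1, y) (x, y + 1) w0 w1 (by norm_num) (by norm_num) (by norm_num) (by norm_num)
  have bb1 : Black (x + 1, y + 1) := by unfold Black; simp only; grind
  have bb2 : Black (x + 1, y - 1) := by unfold Black; simp only; grind
  have k3 := Rr (x, y) (x + 1, y + 1) B00 bb1 (by norm_num) (by norm_num) (by norm_num) (by norm_num)
  have k4 := Rr (x + 1, y - 1) (x, y) bb2 B00 (by norm_num) (by norm_num) (by norm_num) (by norm_num)
  simp only [RelL, RelR, sg_add_one, sg_eq_of_even hb] at k1 k2 k3 k4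
  have s2 : sg (x + 2) = sg x := by
    rw [show x + 2 = x + 1 + 1 by ring, sg_add_one, sg_add_one, neg_neg]
  simp only [sg_add_one, sg_sub_one, s2] at h5 h6 h7 h8
  have ss := sg_mul_self x
  simp only [mixD, lap2]
  have a1 : y + 2 - 1 = y + 1 := by ring
  have a2 : y + 1 - 1 = y := by ring
  have a3 : y - 1 - 1 = y - 2 := by ring
  have a4 : x + 2 - 1 = x + 1 := by ring
  have a5 : x + 1 - 1 = x := by ring
  have a6 : x - 1 - 1 = x - 2 := by ring
  have a7 : y + 1 + 1 = y + 2 := by ring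
  have a8 : x + 1 + 1 = x + 2 := by ring
  have c1 : x - 1 + 2 * 1 = x + 1 := by ring
  have c2 : y + 1 + 2 * 0 = y + 1 := by ring
  have c3 : x + 1 + 2 * 0 = x + 1 := by ring
  have c4 : y + 2 * 1 = y + 2 := by ring
  have c5 : x + 2 * 1 = x + 2 := by ring
  have c6 : y + 2 * 0 = y := by ring
  have c7 : y - 1 + 2 * 1 = y + 1 := by ring
  simp only [a1, a2, a3, a4, a5, a6, a7, a8] at h1 h2 h3 h4 h5 h6 h7 h8 k1 k2 k3 k4
  simp only [c1, c2, c3, c4, c5, c6, c7]
  have k1' : R (x, y + 2) (x + 1, y + 2) - R (x, y) (x + 1, y + 2) =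
      sg x * (R (x + 1, y + 1) (x + 1, y + 2) - R (x - 1, y + 1) (x + 1, y + 2)) := by
    linear_combination (-sg x) * k1 - (R (x, y + 2) (x + 1, y + 2) - R (x, y) (x + 1, y + 2)) * ss
  have k2' : R (x + 1, y + 1) (x, y + 1) - R (x + 1, y - 1) (x, y + 1) =
      - sg x * (R (x + 2, y) (x, y + 1) - R (x, y) (x, y + 1)) := by
    linear_combination sg x * k2 - (R (x + 1, y + 1) (x, y + 1) - R (x + 1, y - 1) (x, y + 1)) * ss
  have k3' : R (x, y) (x + 1, y + 2) - R (x, y) (x + 1, y) =
      sg x * (R (x, y) (x, y + 1) - R (x, y) (x + 2, y + 1)) := by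
    linear_combination (-sg x) * k3 - (R (x, y) (x + 1, y + 2) - R (x, y) (x + 1, y)) * ss
  have k4' : R (x + 1, y - 1) (x, y + 1) - R (x + 1, y - 1) (x, y - 1) =
      - sg x * (R (x + 1, y - 1) (x - 1, y) - R (x + 1, y - 1) (x + 1, y)) := by
    linear_combination sg x * k4 - (R (x + 1, y - 1) (x, y + 1) - R (x + 1, y - 1) (x, y - 1)) * ss
  linear_combination h1 + h2 - h3 - h4 + h5 + h6 - h7 - h8 + k1' + k2' + k3' + k4'

/-- white lower left corner: exact formula -/
theorem lap2_white {R : Pt → Pt → ℝ} {H : Pt → ℝ} {x y : ℤ} (hb : Odd (x + y))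
    (I : ∀ f : Pt, |f.1 - x| ≤ 2 → |f.2 - y| ≤ 2 → IncrAt R H f)
    (L : ∀ w' w : Pt, White w' → White w → |w'.1 - x| ≤ 3 → |w'.2 - y| ≤ 3 →
      |w.1 - x| ≤ 3 → |w.2 - y| ≤ 3 → RelL R w' w)
    (Rr : ∀ b b' : Pt, Black b → Black b' → |b.1 - x| ≤ 3 → |b.2 - y| ≤ 3 →
      |b'.1 - x| ≤ 3 → |b'.2 - y| ≤ 3 → RelR R b b') :
    lap2 H (x, y) = sg x * (mixD R (x, y + 1) (x, y) (1, 0) (1, 0)
      - mixD R (x, y + 1) (x, y) (1, 0) (0, 1)
      + mixD R (x - 1, y) (x - 1, y + 1) (1, 0) (1, 0)
      + mixD R (x, y - 1) (x, y) (0, 1) (1, 0)) := by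
  have B00 : ¬ Black (x, y) := by unfold Black; simp only; grind
  have h3 := (I (x, y) (by simp) (by simp)).vert
  have h7 := (I (x, y) (by simp) (by simp)).horiz
  have h2 := (I (x, y + 1) (by simp) (by norm_num)).vert
  have h1 := (I (x, y + 2) (by simp) (by norm_num)).vert
  have h4 := (I (x, y - 1) (by simp) (by norm_num)).vert
  have h6 := (I (x + 1, y) (by norm_num) (by simp)).horiz
  have h5 := (I (x + 2, y) (by norm_num) (by simp)).horiz
  have h8 := (I (x - 1, y) (by norm_num) (by simp)).horiz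
  have b1 : ¬ Black (x, y + 2) := by unfold Black; simp only; grind
  have b2 : Black (x, y + 1) := by unfold Black; simp only; grind
  have b4 : Black (x, y - 1) := by unfold Black; simp only; grind
  have b5 : ¬ Black (x + 2, y) := by unfold Black; simp only; grind
  have b6 : Black (x + 1, y) := by unfold Black; simp only; grind
  have b8 : Black (x - 1, y) := by unfold Black; simp only; grind
  simp only [Rs, b1, b2, b4, b5, b6, b8, B00, if_true, if_false] at h1 h2 h3 h4 h5 h6 h7 h8
  -- relations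
  have w1 : White (x + 1, y + 1) := by unfold White; simp only; grind
  have w0 : White (x, y) := by unfold White; simp only; grind
  have w2 : White (x, y + 2) := by unfold White; simp only; grind
  have k1 := L (x + 1, y + 1) (x, y + 2) w1 w2 (by norm_num) (by norm_num) (by norm_num) (by norm_num)
  have k2 := L (x, y) (x + 1, y + 1) w0 w1 (by norm_num) (by norm_num) (by norm_num) (by norm_num)
  have k3 := Rr (x + 1, y) (x, y + 1) b6 b2 (by norm_num) (by norm_num) (by norm_num) (by norm_num)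
  have k4 := Rr (x, y - 1) (x + 1, y) b4 b6 (by norm_num) (by norm_num) (by norm_num) (by norm_num)
  simp only [RelL, RelR, sg_add_one, sg_eq_of_odd hb] at k1 k2 k3 k4
  have s2 : sg (x + 2) = sg x := by
    rw [show x + 2 = x + 1 + 1 by ring, sg_add_one, sg_add_one, neg_neg]
  simp only [sg_add_one, sg_sub_one, s2] at h5 h6 h7 h8
  have ss := sg_mul_self x
  simp only [mixD, lap2]
  have a1 : y + 2 - 1 = y + 1 := by ring
  have a2 : y + 1 - 1 = y := by ring
  have a3 : y - 1 - 1 = y - 2 := by ring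
  have a4 : x + 2 - 1 = x + 1 := by ring
  have a5 : x + 1 - 1 = x := by ring
  have a6 : x - 1 - 1 = x - 2 := by ring
  have a7 : y + 1 + 1 = y + 2 := by ring
  have a8 : x + 1 + 1 = x + 2 := by ring
  have c1 : x - 1 + 2 * 1 = x + 1 := by ring
  have c2 : y + 1 + 2 * 0 = y + 1 := by ring
  have c3 : x + 2 * 0 = x := by ring
  have c4 : y + 2 * 1 = y + 2 := by ring
  have c5 : x + 2 * 1 = x + 2 := by ring
  have c6 : y + 2 * 0 = y := by ring
  have c7 : y - 1 + 2 * 1 = y + 1 := by ring
  simp only [a1, a2, a3, a4, a5, a6, a7, a8, neg_neg] at h1 h2 h3 h4 h5 h6 h7 h8 k1 k2 k3 k4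
  simp only [c1, c2, c3, c4, c5, c6, c7]
  have k1' : R (x + 1, y + 2) (x, y + 2) - R (x + 1, y) (x, y + 2) =
      - sg x * (R (x + 2, y + 1) (x, y + 2) - R (x, y + 1) (x, y + 2)) := by
    linear_combination (sg x) * k1 - (R (x + 1, y + 2) (x, y + 2) - R (x + 1, y) (x, y + 2)) * ss
  have k2' : R (x, y + 1) (x + 1, y + 1) - R (x, y - 1) (x + 1, y + 1) =
      sg x * (R (x + 1, y) (x + 1, y + 1) - R (x - 1, y) (x + 1, y + 1)) := by
    linear_combination -sg x * k2 - (R (x, y + 1) (x + 1, y + 1) - R (x, y - 1) (x + 1, y + 1)) * ss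
  have k3' : R (x + 1, y) (x, y + 2) - R (x + 1, y) (x, y) =
      sg x * (R (x + 1, y) (x + 1, y + 1) - R (x + 1, y) (x - 1, y + 1)) := by
    linear_combination (sg x) * k3 - (R (x + 1, y) (x, y + 2) - R (x + 1, y) (x, y)) * ss
  have k4' : R (x, y - 1) (x + 1, y + 1) - R (x, y - 1) (x + 1, y - 1) =
      - sg x * (R (x, y - 1) (x + 2, y) - R (x, y - 1) (x, y)) := by
    linear_combination -sg x * k4 - (R (x, y - 1) (x + 1, y + 1) - R (x, y - 1) (x + 1, y - 1)) * ss
  linear_combination h1 + h2 - h3 - h4 + h5 + h6 - h7 - h8 + k1' + k2' + k3' + k4'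

/-- pointwise bound -/
theorem abs_lap2_le {R : Pt → Pt → ℝ} {H : Pt → ℝ} {f : Pt} {M : ℝ}
    (I : ∀ g : Pt, |g.1 - f.1| ≤ 2 → |g.2 - f.2| ≤ 2 → IncrAt R H g)
    (L : ∀ w' w : Pt, White w' → White w → |w'.1 - f.1| ≤ 3 → |w'.2 - f.2| ≤ 3 →
      |w.1 - f.1| ≤ 3 → |w.2 - f.2| ≤ 3 → RelL R w' w)
    (Rr : ∀ b b' : Pt, Black b → Black b' → |b.1 - f.1| ≤ 3 → |b.2 - f.2| ≤ 3 →
      |b'.1 - f.1| ≤ 3 → |b'.2 - f.2| ≤ 3 → RelR R b b')
    (hM : ∀ b w u v : Pt, Black b → White w → |b.1 - f.1| ≤ 1 → |b.2 - f.2| ≤ 1 →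
      |w.1 - f.1| ≤ 1 → |w.2 - f.2| ≤ 1 → (u = (1, 0) ∨ u = (0, 1)) → (v = (1, 0) ∨ v = (0, 1)) →
      |mixD R b w u v| ≤ M) :
    |lap2 H f| ≤ 4 * M := by
  obtain ⟨x, y⟩ := f
  rcases Int.even_or_odd (x + y) with hb | hb
  · rw [lap2_black hb I L Rr, abs_mul, abs_sg, one_mul]
    have m1 := abs_le.1 (hM (x - 1, y + 1) (x + 1, y) (1, 0) (0, 1) (by unfold Black; simp only; grind)
      (by unfold White; simp only; grind) (by simp) (by simp) (by simp) (by simp) (by simp) (by simp))
    have m2 := abs_le.1 (hM (x, y) (x, y + 1) (1, 0) (1, 0) (by unfold Black; simp only; grind)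
      (by unfold White; simp only; grind) (by simp) (by simp) (by simp) (by simp) (by simp) (by simp))
    have m3 := abs_le.1 (hM (x + 1, y - 1) (x - 1, y) (0, 1) (1, 0) (by unfold Black; simp only; grind)
      (by unfold White; simp only; grind) (by simp) (by simp) (by simp) (by simp) (by simp) (by simp))
    have m4 := abs_le.1 (hM (x - 1, y + 1) (x - 1, y) (1, 0) (1, 0) (by unfold Black; simp only; grind)
      (by unfold White; simp only; grind) (by simp) (by simp) (by simp) (by simp) (by simp) (by simp))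
    rw [abs_le]
    constructor <;> linarith [m1.1, m1.2, m2.1, m2.2, m3.1, m3.2, m4.1, m4.2]
  · rw [lap2_white hb I L Rr, abs_mul, abs_sg, one_mul]
    have m1 := abs_le.1 (hM (x, y + 1) (x, y) (1, 0) (1, 0) (by unfold Black; simp only; grind)
      (by unfold White; simp only; grind) (by simp) (by simp) (by simp) (by simp) (by simp) (by simp))
    have m2 := abs_le.1 (hM (x, y + 1) (x, y) (1, 0) (0, 1) (by unfold Black; simp only; grind)
      (by unfold White; simp only; grind) (by simp) (by simp) (by simp) (by simp) (by simp) (by simp))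
    have m3 := abs_le.1 (hM (x - 1, y) (x - 1, y + 1) (1, 0) (1, 0) (by unfold Black; simp only; grind)
      (by unfold White; simp only; grind) (by simp) (by simp) (by simp) (by simp) (by simp) (by simp))
    have m4 := abs_le.1 (hM (x, y - 1) (x, y) (0, 1) (1, 0) (by unfold Black; simp only; grind)
      (by unfold White; simp only; grind) (by simp) (by simp) (by simp) (by simp) (by simp) (by simp))
    rw [abs_le]
    constructor <;> linarith [m1.1, m1.2, m2.1, m2.2, m3.1, m3.2, m4.1, m4.2]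

end Vale.Agent.P155.E1
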